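import Mathlib.Analysis.SpecialFunctions.Trigonometric.ArctanDeriv
import Mathlib.Analysis.SpecialFunctions.Log.Basic
import Mathlib.Analysis.Complex.Norm
import Mathlib.Analysis.Complex.Trigonometric
import Mathlib.Analysis.SpecialFunctions.Trigonometric.Series
import Mathlib.Analysis.Calculus.Deriv.MeanValue
import Mathlib.NumberTheory.Harmonic.Bounds
import Mathlib.Order.Interval.Finset.Defs
import Mathlib.Data.Int.Interval
import Mathlib.Tactic

/-!
# Logarithmic profiles on the square lattice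
-/

namespace Vale.Agent.P163

open Finset Real

/-- Sites of the square lattice. -/
abbrev Site : Type := ℤ × ℤ

/-- The two positive lattice directions. -/
def step (x : Site) (b : Bool) : Site := if b then (x.1 + 1, x.2) else (x.1, x.2 + 1)

/-- A site as a complex number. -/
noncomputable def emb (x : Site) : ℂ := ⟨x.1, x.2⟩

/-- Euclidean norm of a site. -/
noncomputable def rad (x : Site) : ℝ := ‖emb x‖

theorem rad_sq (x : Site) : rad x ^ 2 = (x.1 : ℝ) ^ 2 + (x.2 : ℝ) ^ 2 := by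
  simp [rad, emb, Complex.sq_norm, Complex.normSq_apply]
  ring

theorem rad_nonneg (x : Site) : 0 ≤ rad x := norm_nonneg _

theorem emb_sub (x y : Site) : emb (x - y) = emb x - emb y := by
  apply Complex.ext <;> simp [emb]

theorem rad_sub_le (x y z : Site) : rad (x - z) ≤ rad (x - y) + rad (y - z) := by
  simp only [rad, emb_sub]
  exact norm_sub_le_norm_sub_add_norm_sub _ _ _

theorem rad_sub_comm (x y : Site) : rad (x - y) = rad (y - x) := by
  simp only [rad, emb_sub]
  exact norm_sub_rev _ _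

theorem abs_fst_le (x : Site) : |(x.1 : ℝ)| ≤ rad x := Complex.abs_re_le_norm (emb x)

theorem abs_snd_le (x : Site) : |(x.2 : ℝ)| ≤ rad x := Complex.abs_im_le_norm (emb x)

theorem rad_step_sub (x : Site) (b : Bool) : rad (step x b - x) = 1 := by
  have h := rad_sq (step x b - x)
  have h0 := rad_nonneg (step x b - x)
  cases b <;> simp [step] at h h0 ⊢ <;> rcases h with h | h <;> linarith

theorem rad_step_le (x : Site) (b : Bool) : rad (step x b) ≤ rad x + 1 ∧ rad x ≤ rad (step x b) + 1 := by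
  have h1 := rad_sub_le (step x b) x 0
  have h2 := rad_sub_le x (step x b) 0
  rw [rad_step_sub] at h1
  rw [rad_sub_comm x (step x b), rad_step_sub] at h2
  simp only [sub_zero] at h1 h2
  constructor <;> linarith

/-- The square box of half side `K`. -/
noncomputable def box (K : ℕ) : Finset Site := Icc (-(K : ℤ), -(K : ℤ)) ((K : ℤ), (K : ℤ))

theorem mem_box {K : ℕ} {x : Site} : x ∈ box K ↔ |x.1| ≤ K ∧ |x.2| ≤ K := by
  simp only [box, Finset.mem_Icc, Prod.le_def, abs_le]
  tauto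

theorem card_box (K : ℕ) : (box K).card = (2 * K + 1) ^ 2 := by
  simp only [box, Finset.Icc_prod_def, card_product, Int.card_Icc]
  rw [show ((K : ℤ) + 1 - -(K : ℤ)).toNat = 2 * K + 1 by omega, sq]

theorem mem_box_of_rad {x : Site} {K : ℕ} (h : rad x ≤ K) : x ∈ box K := by
  rw [mem_box]
  have a := (abs_fst_le x).trans h
  have b := (abs_snd_le x).trans h
  constructor <;> [exact_mod_cast a; exact_mod_cast b]

theorem arctan_step {k : ℝ} (hk : 0 < k) (j : ℕ) :
    k / (k ^ 2 + ((j : ℝ) + 1) ^ 2) ≤ arctan (((j : ℝ) + 1) / k) - arctan ((j : ℝ) / k) := by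
  have hlt : (j : ℝ) / k < ((j : ℝ) + 1) / k := div_lt_div_of_pos_right (by linarith) hk
  obtain ⟨t, ⟨t0, t1⟩, ht⟩ := exists_hasDerivAt_eq_slope arctan (fun t => 1 / (1 + t ^ 2)) hlt
    continuous_arctan.continuousOn fun t _ => hasDerivAt_arctan t
  have htn : 0 ≤ t := le_of_lt (lt_of_le_of_lt (div_nonneg (Nat.cast_nonneg j) hk.le) t0)
  have hd : ((j : ℝ) + 1) / k - (j : ℝ) / k = 1 / k := by ring
  rw [hd, eq_div_iff (by positivity)] at ht
  rw [← ht]
  have e : k / (k ^ 2 + ((j : ℝ) + 1) ^ 2) = 1 / (1 + (((j : ℝ) + 1) / k) ^ 2) * (1 / k) := by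
    field_simp
  rw [e]
  refine mul_le_mul_of_nonneg_right ?_ (by positivity)
  exact one_div_le_one_div_of_le (by positivity) (by nlinarith)

theorem line_sum_le {k : ℝ} (hk : 0 < k) : ∀ m : ℕ,
    ∑ j ∈ Icc (-(m : ℤ)) m, k / (k ^ 2 + (j : ℝ) ^ 2) ≤ 1 / k + 2 * arctan ((m : ℝ) / k)
  | 0 => by
    simp
    rw [sq, div_mul_cancel_left₀ hk.ne']
  | m + 1 => by
    have hs : Icc (-((m + 1 : ℕ) : ℤ)) ((m + 1 : ℕ) : ℤ)
        = insert (-((m : ℤ) + 1)) (insert ((m : ℤ) + 1) (Icc (-(m : ℤ)) m)) := by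
      ext j
      simp only [Finset.mem_Icc, Finset.mem_insert]
      push_cast
      omega
    rw [hs, sum_insert (by simp; omega), sum_insert (by simp)]
    push_cast
    rw [neg_sq]
    have := line_sum_le hk m
    have := arctan_step hk m
    linarith

theorem inv_sq_sum_succ : ∀ K : ℕ, ∑ k ∈ Icc 1 (K + 1), (1 : ℝ) / (k : ℝ) ^ 2 ≤ 2 - 1 / (K + 1)
  | 0 => by norm_num
  | K + 1 => by
    rw [sum_Icc_succ_top (by omega)]
    have := inv_sq_sum_succ K
    have h : (1 : ℝ) / ((K : ℝ) + 2) ^ 2 ≤ 1 / ((K : ℝ) + 1) - 1 / ((K : ℝ) + 2) := by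
      rw [div_sub_div _ _ (by positivity) (by positivity),
        div_le_div_iff₀ (by positivity) (by positivity)]
      nlinarith
    push_cast
    rw [show (K : ℝ) + 1 + 1 = (K : ℝ) + 2 by ring]
    linarith

theorem inv_sq_sum_le (K : ℕ) : ∑ k ∈ Icc 1 K, (1 : ℝ) / (k : ℝ) ^ 2 ≤ 2 := by
  cases K with
  | zero => simp
  | succ K =>
    have := inv_sq_sum_succ K
    have : (0 : ℝ) ≤ 1 / ((K : ℝ) + 1) := by positivity
    linarith

/-- The four sides of the shells. -/
def side (q : Fin 4) (k j : ℤ) : Site :=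
  if q = 0 then (k, j) else if q = 1 then (-k, j) else if q = 2 then (j, k) else (j, -k)

theorem sum_inv_sq_le {K : ℕ} :
    ∑ x ∈ (box K).erase 0, 1 / rad x ^ 2 ≤ 2 * π * (1 + log K) + 8 := by
  set I : Finset (Σ _ : ℕ, Fin 4 × ℤ) :=
    (Icc 1 K).sigma fun k => Finset.univ ×ˢ Icc (-(k : ℤ)) k with hI
  set g : (Σ _ : ℕ, Fin 4 × ℤ) → Site := fun p => side p.2.1 p.1 p.2.2 with hg
  have hsub : (box K).erase 0 ⊆ I.image g := by
    intro x hx
    obtain ⟨hne, hx⟩ := mem_erase.1 hx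
    obtain ⟨a, b⟩ := x
    rw [mem_box] at hx
    simp only at hx
    rw [abs_le, abs_le] at hx
    rw [ne_eq, Prod.mk_eq_zero] at hne
    simp only [mem_image, hI, Finset.mem_sigma, mem_product, Finset.mem_univ, true_and,
      Finset.mem_Icc, hg, side]
    rcases le_or_gt |b| |a| with h | h
    · rcases le_or_gt 0 a with ha | ha
      · refine ⟨⟨a.toNat, 0, b⟩, ?_⟩
        rw [abs_of_nonneg ha, abs_le] at h
        simp
        omega
      · refine ⟨⟨(-a).toNat, 1, b⟩, ?_⟩
        rw [abs_of_neg ha, abs_le] at h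
        simp
        omega
    · rcases le_or_gt 0 b with hb | hb
      · refine ⟨⟨b.toNat, 2, a⟩, ?_⟩
        rw [abs_of_nonneg hb, abs_lt] at h
        simp
        omega
      · refine ⟨⟨(-b).toNat, 3, a⟩, ?_⟩
        rw [abs_of_neg hb, abs_lt] at h
        simp
        omega
  refine (sum_le_sum_of_subset_of_nonneg hsub fun x _ _ => by positivity).trans ?_
  refine (sum_image_le_of_nonneg fun x _ => by positivity).trans ?_
  rw [hI, sum_sigma]
  have inner : ∀ k ∈ Icc 1 K, ∑ p ∈ (Finset.univ : Finset (Fin 4)) ×ˢ Icc (-(k : ℤ)) k,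
      1 / rad (g ⟨k, p⟩) ^ 2 ≤ 2 * π * (1 / (k : ℝ)) + 4 * (1 / (k : ℝ) ^ 2) := by
    intro k hk
    have hk0 : (0 : ℝ) < k := by exact_mod_cast (Finset.mem_Icc.1 hk).1
    have e : ∀ (q : Fin 4) (j : ℤ),
        1 / rad (g ⟨k, (q, j)⟩) ^ 2 = 1 / (k : ℝ) * ((k : ℝ) / ((k : ℝ) ^ 2 + (j : ℝ) ^ 2)) := by
      intro q j
      have h2 : rad (g ⟨k, (q, j)⟩) ^ 2 = (k : ℝ) ^ 2 + (j : ℝ) ^ 2 := by
        rw [rad_sq]
        fin_cases q <;> simp [hg, side] <;> ring
      rw [h2]
      field_simp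
    rw [sum_product]
    simp only [e, ← mul_sum, sum_const, card_univ, Fintype.card_fin, nsmul_eq_mul]
    have hl := line_sum_le hk0 k
    rw [div_self hk0.ne', arctan_one] at hl
    refine le_trans (mul_le_mul_of_nonneg_left
      (mul_le_mul_of_nonneg_left hl (by positivity)) (by norm_num)) (le_of_eq ?_)
    push_cast
    field_simp
    ring
  refine (sum_le_sum inner).trans ?_
  rw [sum_add_distrib, ← mul_sum, ← mul_sum]
  have hh : ∑ k ∈ Icc 1 K, 1 / (k : ℝ) ≤ 1 + log K := by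
    have := harmonic_le_one_add_log K
    simpa [harmonic_eq_sum_Icc] using this
  have := mul_le_mul_of_nonneg_left hh (show (0 : ℝ) ≤ 2 * π by positivity)
  linarith [inv_sq_sum_le K]

/-- Half the logarithm of the squared norm, cut off at the origin. -/
noncomputable def lg (x : Site) : ℝ := log (max (rad x ^ 2) 1) / 2

/-- The logarithmic bump of radius `M`. -/
noncomputable def bump (M : ℝ) (x : Site) : ℝ := max 0 (log M - lg x)

theorem lg_nonneg (x : Site) : 0 ≤ lg x :=
  div_nonneg (log_nonneg (le_max_right _ _)) (by norm_num)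

theorem bump_nonneg (M : ℝ) (x : Site) : 0 ≤ bump M x := le_max_left _ _

theorem bump_of_rad_le_one {M : ℝ} (hM : 1 ≤ M) {x : Site} (hx : rad x ≤ 1) :
    bump M x = log M := by
  have : rad x ^ 2 ≤ 1 := pow_le_one₀ (rad_nonneg x) hx
  simp [bump, lg, max_eq_right this, log_nonneg hM]

theorem bump_le {M : ℝ} (hM : 1 ≤ M) (x : Site) : bump M x ≤ log M :=
  max_le (log_nonneg hM) (by linarith [lg_nonneg x])

theorem bump_eq_zero {M : ℝ} (hM : 1 ≤ M) {x : Site} (hx : M ≤ rad x) : bump M x = 0 := by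
  refine max_eq_left (sub_nonpos.2 ?_)
  have h : M ^ 2 ≤ max (rad x ^ 2) 1 :=
    le_trans (pow_le_pow_left₀ (by linarith) hx 2) (le_max_left _ _)
  have := log_le_log (by positivity) h
  rw [log_pow] at this
  simp only [lg]
  push_cast at this
  linarith

theorem abs_bump_sub_le (M : ℝ) (x y : Site) : |bump M x - bump M y| ≤ |lg x - lg y| := by
  refine (abs_max_sub_max_le_max _ _ _ _).trans ?_
  simp [abs_sub_comm (lg x)]

theorem abs_log_sub_le {A B m : ℝ} (hm : 0 < m) (hA : m ≤ A) (hB : m ≤ B) :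
    |log A - log B| ≤ |A - B| / m := by
  have key : ∀ {A B : ℝ}, m ≤ A → m ≤ B → log A - log B ≤ |A - B| / m := by
    intro A B hA hB
    have hB0 : 0 < B := hm.trans_le hB
    have hA0 : 0 < A := hm.trans_le hA
    rw [← log_div hA0.ne' hB0.ne']
    refine (log_le_sub_one_of_pos (by positivity)).trans ?_
    rw [div_sub_one hB0.ne']
    exact (div_le_div_of_nonneg_right (le_abs_self _) hB0.le).trans
      (div_le_div_of_nonneg_left (abs_nonneg _) hm hB)
  rw [abs_le]
  constructor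
  · have := key hB hA
    rw [abs_sub_comm] at this
    linarith
  · exact key hA hB

/-- The coordinate moved by a step. -/
def coordAt (x : Site) (b : Bool) : ℤ := if b then x.1 else x.2

theorem abs_lg_step {x : Site} (b : Bool) (hx : 2 ≤ rad x) :
    |lg (step x b) - lg x| ≤ (|(coordAt x b : ℝ)| + 1) / (rad x - 1) ^ 2 := by
  have h1 : (1 : ℝ) ≤ (rad x - 1) ^ 2 := one_le_pow₀ (by linarith)
  have hs : rad x - 1 ≤ rad (step x b) := by linarith [(rad_step_le x b).2]
  have hA : (rad x - 1) ^ 2 ≤ rad (step x b) ^ 2 := pow_le_pow_left₀ (by linarith) hs 2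
  have hB : (rad x - 1) ^ 2 ≤ rad x ^ 2 := pow_le_pow_left₀ (by linarith) (by linarith) 2
  have h := abs_log_sub_le (by linarith) hA hB
  have e : rad (step x b) ^ 2 - rad x ^ 2 = 2 * (coordAt x b : ℝ) + 1 := by
    rw [rad_sq, rad_sq]
    cases b <;> simp [step, coordAt] <;> ring
  rw [e] at h
  have h3 : |2 * (coordAt x b : ℝ) + 1| ≤ 2 * (|(coordAt x b : ℝ)| + 1) := by
    refine (abs_add_le _ _).trans ?_
    rw [abs_mul]
    norm_num
    linarith [abs_nonneg (coordAt x b : ℝ)]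
  simp only [lg, max_eq_left (h1.trans hA), max_eq_left (h1.trans hB), ← sub_div, abs_div,
    abs_of_pos (show (0 : ℝ) < 2 by norm_num)]
  rw [div_le_iff₀ (by norm_num)]
  refine h.trans ?_
  rw [div_mul_eq_mul_div]
  exact div_le_div_of_nonneg_right (by linarith) (by linarith)

theorem abs_lg_step_le {x : Site} (b : Bool) (hx : 3 ≤ rad x) :
    |lg (step x b) - lg x| ≤ 8 / rad x := by
  refine (abs_lg_step b (by linarith)).trans ?_
  have ha : |(coordAt x b : ℝ)| ≤ rad x := by
    cases b <;> simp [coordAt, abs_fst_le, abs_snd_le]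
  rw [div_le_div_iff₀ (by nlinarith) (by linarith)]
  nlinarith

theorem sq_lg_step_sum {ε : ℝ} (hε : 0 < ε) {x : Site} (hx : 24 / ε + 3 ≤ rad x)
    (hε1 : ε ≤ 1) :
    ∑ b : Bool, (lg (step x b) - lg x) ^ 2 ≤ (1 + ε) / rad x ^ 2 := by
  set r := rad x with hr
  have hr3 : 3 ≤ r := by linarith [div_nonneg (show (0 : ℝ) ≤ 24 by norm_num) hε.le]
  have hεr : 24 ≤ ε * r := by
    have := mul_le_mul_of_nonneg_left hx hε.le
    rw [mul_add, mul_div_cancel₀ _ hε.ne'] at this
    linarith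
  have hsum : ∑ b : Bool, (lg (step x b) - lg x) ^ 2 ≤ (r + 2) ^ 2 / (r - 1) ^ 4 := by
    rw [Fintype.sum_bool, ← sq_abs, ← sq_abs (lg (step x false) - lg x)]
    have a := pow_le_pow_left₀ (abs_nonneg _) (abs_lg_step (x := x) true (by linarith)) 2
    have b := pow_le_pow_left₀ (abs_nonneg _) (abs_lg_step (x := x) false (by linarith)) 2
    refine (add_le_add a b).trans ?_
    rw [div_pow, div_pow, ← add_div, ← pow_mul]
    refine div_le_div_of_nonneg_right ?_ (pow_nonneg (by linarith) _)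
    have := rad_sq x
    have := sq_abs (x.1 : ℝ)
    have := sq_abs (x.2 : ℝ)
    simp only [coordAt, if_true, Bool.false_eq_true, if_false]
    nlinarith [abs_fst_le x, abs_snd_le x]
  refine hsum.trans ?_
  have h1 : (r + 2) * r ≤ (1 + ε / 3) * (r - 1) ^ 2 := by nlinarith
  rw [div_le_div_iff₀ (pow_pos (by linarith) 4) (by positivity)]
  calc (r + 2) ^ 2 * r ^ 2 = ((r + 2) * r) ^ 2 := by ring
    _ ≤ ((1 + ε / 3) * (r - 1) ^ 2) ^ 2 := pow_le_pow_left₀ (by positivity) h1 2
    _ ≤ (1 + ε) * (r - 1) ^ 4 := by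
      rw [mul_pow, ← pow_mul]
      refine mul_le_mul_of_nonneg_right ?_ (pow_nonneg (by linarith) _)
      nlinarith

theorem exp_sq_sub_one_le {u : ℝ} : exp u - 1 ≤ u * exp u := by
  have := add_one_le_exp (-u)
  have h : exp u * exp (-u) = 1 := by rw [← exp_add]; simp
  nlinarith [exp_pos u]

theorem cosh_sub_one_le (d : ℝ) : cosh d - 1 ≤ d ^ 2 / 2 * exp (d ^ 2 / 2) :=
  (sub_le_sub_right (cosh_le_exp_half_sq d) 1).trans exp_sq_sub_one_le

end Vale.Agent.P163
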