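import Vale.Agent.P163.Tilt
import Vale.Agent.P163.Lattice
import Mathlib.Analysis.SpecialFunctions.Trigonometric.DerivHyp
import Mathlib.Analysis.Complex.ExponentialBounds

/-!
# Decay in finite volume
-/

namespace Vale.Agent.P163

open Finset Real

variable {V E : Type} [Fintype V] [Fintype E]

/-- A finite graph that looks like the square lattice inside the box of half side `K`. -/
structure IsWindow (src dst : E → V) (ℓ : V → Site) (dir : E → Bool) (K : ℕ) : Prop where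
  inj : Function.Injective fun e => (ℓ (src e), dir e)
  link : ∀ e, (ℓ (src e) ∈ box K ∨ ℓ (dst e) ∈ box K) → ℓ (dst e) = step (ℓ (src e)) (dir e)

/-- The squared increment of a lattice function along a bond of the lattice. -/
noncomputable def inc (F : Site → ℝ) (p : Site × Bool) : ℝ := (F (step p.1 p.2) - F p.1) ^ 2

theorem inc_bump_le (M : ℝ) (p : Site × Bool) : inc (bump M) p ≤ (lg (step p.1 p.2) - lg p.1) ^ 2 := by
  rw [inc, ← sq_abs, ← sq_abs (lg _ - lg _)]
  exact pow_le_pow_left₀ (abs_nonneg _) (abs_bump_sub_le M _ _) 2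

theorem one_le_rad {x : Site} (hx : x ≠ 0) : 1 ≤ rad x := by
  have h1 : (1 : ℤ) ≤ x.1 ^ 2 + x.2 ^ 2 := by
    rcases not_and_or.1 (fun hh => hx (Prod.ext hh.1 hh.2)) with h | h
    · nlinarith [sq_pos_of_ne_zero h, sq_nonneg x.2]
    · nlinarith [sq_pos_of_ne_zero h, sq_nonneg x.1]
  have h2 : (1 : ℝ) ≤ (x.1 : ℝ) ^ 2 + (x.2 : ℝ) ^ 2 := by exact_mod_cast h1
  nlinarith [rad_sq x, rad_nonneg x]

theorem lg_le {x : Site} {r : ℝ} (hr : 1 ≤ r) (hx : rad x ≤ r) : lg x ≤ log r := by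
  have h : max (rad x ^ 2) 1 ≤ r ^ 2 :=
    max_le (pow_le_pow_left₀ (rad_nonneg x) hx 2) (one_le_pow₀ hr)
  have := log_le_log (by positivity) h
  rw [log_pow] at this
  simp only [lg]
  push_cast at this
  linarith

/-- The Dirichlet sum of the logarithm over a box is `2 π (1 + ε) log K + O(1)`. -/
theorem exists_energy_le {ε : ℝ} (hε : 0 < ε) (hε1 : ε ≤ 1) :
    ∃ C : ℝ, 0 ≤ C ∧ ∀ K : ℕ, ∑ p ∈ box K ×ˢ (univ : Finset Bool),
      (lg (step p.1 p.2) - lg p.1) ^ 2 ≤ 2 * π * (1 + ε) * log K + C := by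
  set r₀ := 24 / ε + 3 with hr₀
  set N := ⌈r₀⌉₊ with hN
  have hr₀3 : 3 ≤ r₀ := by
    have : 0 ≤ 24 / ε := by positivity
    linarith
  refine ⟨2 * π * (1 + ε) + 8 * (1 + ε) + (box N).card * (2 * log (r₀ + 1) ^ 2), by positivity,
    fun K => ?_⟩
  rw [sum_product]
  have hpt : ∀ x ∈ box K, ∑ b : Bool, (lg (step x b) - lg x) ^ 2
      ≤ (if x = 0 then 0 else (1 + ε) / rad x ^ 2)
        + (if x ∈ box N then 2 * log (r₀ + 1) ^ 2 else 0) := by
    intro x _
    have n1 : 0 ≤ (if x = 0 then 0 else (1 + ε) / rad x ^ 2) := by split_ifs <;> positivity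
    have n2 : 0 ≤ (if x ∈ box N then 2 * log (r₀ + 1) ^ 2 else 0) := by split_ifs <;> positivity
    rcases le_or_gt r₀ (rad x) with h | h
    · have := sq_lg_step_sum hε h hε1
      have hx : x ≠ 0 := by
        rintro rfl
        have : rad (0 : Site) = 0 := by simp [rad, emb, Complex.ext_iff]
        linarith
      rw [if_neg hx]
      linarith
    · rw [if_pos (mem_box_of_rad (h.le.trans (Nat.le_ceil r₀)))]
      have hb : ∀ b : Bool, (lg (step x b) - lg x) ^ 2 ≤ log (r₀ + 1) ^ 2 := by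
        intro b
        have a := lg_le (show (1 : ℝ) ≤ r₀ + 1 by linarith) (x := x) (by linarith)
        have c := lg_le (show (1 : ℝ) ≤ r₀ + 1 by linarith) (x := step x b)
          (by linarith [(rad_step_le x b).1])
        nlinarith [lg_nonneg x, lg_nonneg (step x b)]
      rw [Fintype.sum_bool]
      linarith [hb true, hb false]
  refine (sum_le_sum hpt).trans ?_
  rw [sum_add_distrib]
  have h1 : ∑ x ∈ box K, (if x = 0 then 0 else (1 + ε) / rad x ^ 2)
      ≤ (1 + ε) * (2 * π * (1 + log K) + 8) := by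
    refine le_trans (le_of_eq ?_) (mul_le_mul_of_nonneg_left sum_inv_sq_le (by linarith))
    rw [mul_sum, ← sum_erase (box K) (a := (0 : Site))]
    · refine sum_congr rfl fun x hx => ?_
      rw [if_neg (ne_of_mem_erase hx)]
      ring
    · simp
  have h2 : ∑ x ∈ box K, (if x ∈ box N then 2 * log (r₀ + 1) ^ 2 else 0)
      ≤ (box N).card * (2 * log (r₀ + 1) ^ 2) := by
    rw [sum_ite, sum_const_zero, add_zero, sum_const, nsmul_eq_mul]
    refine mul_le_mul_of_nonneg_right (Nat.cast_le.2 (card_le_card fun x hx => ?_)) (by positivity)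
    exact (mem_filter.1 hx).2
  linarith

variable {src dst : E → V} {ℓ : V → Site} {dir : E → Bool} {K : ℕ}

omit [Fintype V] [Fintype E] in
theorem IsWindow.cases_bond (h : IsWindow src dst ℓ dir K) {F : Site → ℝ}
    (hF : ∀ y, F y ≠ 0 → y ∈ box K) (e : E) :
    ℓ (dst e) = step (ℓ (src e)) (dir e) ∨ (F (ℓ (src e)) = 0 ∧ F (ℓ (dst e)) = 0) := by
  by_cases hb : F (ℓ (src e)) = 0 ∧ F (ℓ (dst e)) = 0
  · exact Or.inr hb
  · refine Or.inl (h.link e ?_)
    rcases not_and_or.1 hb with h' | h'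
    · exact Or.inl (hF _ h')
    · exact Or.inr (hF _ h')

/-- The Dirichlet sum over the graph is at most the one over the lattice. -/
theorem IsWindow.sum_le (h : IsWindow src dst ℓ dir K) {G : Site → ℝ} (c : Site)
    {F : Site × Bool → ℝ} (hF : ∀ p, 0 ≤ F p) (hGF : ∀ p, inc G p ≤ F p) {T : Finset (Site × Bool)}
    (hT : ∀ p, inc G p ≠ 0 → p ∈ T) (hG : ∀ y, G (y - c) ≠ 0 → y ∈ box K) :
    ∑ e, (G (ℓ (dst e) - c) - G (ℓ (src e) - c)) ^ 2 ≤ ∑ p ∈ T, F p := by
  classical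
  set g : E → Site × Bool := fun e => (ℓ (src e) - c, dir e) with hg
  have hgi : Function.Injective g := fun e e' he => h.inj (by
    simp only [hg, Prod.mk.injEq, sub_left_inj] at he
    simp [he.1, he.2])
  have key : ∀ e, (G (ℓ (dst e) - c) - G (ℓ (src e) - c)) ^ 2 ≤ inc G (g e)
      ∧ ((G (ℓ (dst e) - c) - G (ℓ (src e) - c)) ^ 2 ≠ 0 → g e ∈ T) := by
    intro e
    rcases h.cases_bond (F := fun y => G (y - c)) hG e with he | ⟨a, b⟩
    · have e1 : step (ℓ (src e)) (dir e) - c = step (ℓ (src e) - c) (dir e) := by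
        ext <;> cases dir e <;> simp [step] <;> ring
      rw [he, e1]
      exact ⟨le_rfl, hT (g e)⟩
    · simp [a, b, inc, sq_nonneg]
  rw [← sum_filter_ne_zero]
  refine (sum_le_sum fun e _ => (key e).1.trans (hGF _)).trans ?_
  rw [← sum_image (fun a _ b _ hab => hgi hab)]
  refine sum_le_sum_of_subset_of_nonneg (fun p hp => ?_) fun p _ _ => hF p
  obtain ⟨e, he, rfl⟩ := mem_image.1 hp
  exact (key e).2 (mem_filter.1 he).2

theorem IsWindow.energy_bump_le (h : IsWindow src dst ℓ dir K) {ε C : ℝ}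
    (hC : ∀ L : ℕ, ∑ p ∈ box L ×ˢ (univ : Finset Bool),
      (lg (step p.1 p.2) - lg p.1) ^ 2 ≤ 2 * π * (1 + ε) * log L + C)
    (hε : 0 ≤ ε) {M : ℝ} (hM : 3 ≤ M) (c : Site)
    (hsupp : ∀ y, rad (y - c) < M → y ∈ box K) :
    ∑ e, (bump M (ℓ (dst e) - c) - bump M (ℓ (src e) - c)) ^ 2
      ≤ 2 * π * (1 + ε) * (log M + 1) + C := by
  set L := ⌈M⌉₊ + 1 with hL
  have hmem : ∀ y, bump M y ≠ 0 → rad y < M := fun y hy =>
    lt_of_not_ge fun hle => hy (bump_eq_zero (by linarith) hle)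
  refine (h.sum_le c (G := bump M) (fun p => sq_nonneg _) (inc_bump_le M)
    (T := box L ×ˢ univ) (fun p hp => ?_) fun y hy => hsupp y (hmem _ hy)).trans ((hC L).trans ?_)
  · refine mem_product.2 ⟨mem_box_of_rad ?_, mem_univ _⟩
    rw [hL]
    push_cast
    by_contra hlt
    have hc := Nat.le_ceil M
    have a := bump_eq_zero (show (1 : ℝ) ≤ M by linarith) (x := p.1) (by linarith)
    have b := bump_eq_zero (show (1 : ℝ) ≤ M by linarith) (x := step p.1 p.2)
      (by linarith [(rad_step_le p.1 p.2).2])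
    exact hp (by simp [inc, a, b])
  · have hle : (L : ℝ) ≤ 2 * M := by
      rw [hL]
      push_cast
      linarith [Nat.ceil_lt_add_one (show (0 : ℝ) ≤ M by linarith)]
    have hl := log_le_log (by positivity) hle
    rw [log_mul (by norm_num) (by linarith)] at hl
    have h2 : log 2 ≤ 1 := by linarith [log_le_sub_one_of_pos (show (0 : ℝ) < 2 by norm_num)]
    gcongr
    linarith

/-- Near the bond `e₀` the tilted planar mean is close to `2 / n`. -/
theorem IsWindow.far_bond {n : ℕ} [NeZero n] (h : IsWindow src dst ℓ dir K) {β : ℝ} (hβ : 0 ≤ β)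
    {i j : Fin n} (hij : i ≠ j) (c : E → ℝ) (e₀ : E) (hlink : ℓ (dst e₀) = step (ℓ (src e₀)) (dir e₀))
    {C : ℝ} (hC : ∀ L : ℕ, ∑ p ∈ box L ×ˢ (univ : Finset Bool),
      (lg (step p.1 p.2) - lg p.1) ^ 2 ≤ 2 * π * (1 + 1) * log L + C) (hC0 : 0 ≤ C)
    {L : ℝ} (hL : 3 ≤ L) (hsupp : ∀ y, rad (y - ℓ (src e₀)) < L → y ∈ box K) {γ : ℝ} (hγ : 0 ≤ γ)
    (hc : ∀ e, rad (ℓ (src e) - ℓ (src e₀)) ≤ L + 1 → |c e| ≤ γ) {η : ℝ} (hη : 0 < η)
    (hbound : β * (π / 2) ^ 2 * (8 * π + C) / log L + 128 * γ * L ^ 2 ≤ η) :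
    avg (fun σ => energy β src dst σ + planar i j c src dst σ)
        (fun σ => pdot i j (σ (src e₀)) (σ (dst e₀))) ≤ 2 / n + 4 * sqrt η := by
  classical
  set x₀ := ℓ (src e₀) with hx₀
  have hlog : 1 ≤ log L := by
    rw [le_log_iff_exp_le (by linarith)]
    linarith [exp_one_lt_d9]
  set φ : V → ℝ := fun v => π / 2 * (bump L (ℓ v - x₀) / log L) with hφ
  have hmem : ∀ y, bump L y ≠ 0 → rad y < L := fun y hy =>
    lt_of_not_ge fun hle => hy (bump_eq_zero (by linarith) hle)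
  set S : Finset E := Finset.univ.filter fun e => φ (src e) ≠ 0 ∨ φ (dst e) ≠ 0
  refine avg_pdot_le β src dst hβ hij c e₀ φ ?_ ?_ hη S
    (fun e he => by simpa [S, not_or] using he) ?_
  · simp [hφ, hx₀, bump_of_rad_le_one (show (1 : ℝ) ≤ L by linarith) (x := (0 : Site))
      (by simp [rad, emb, Complex.norm_def, Complex.normSq_apply]), (by linarith : log L ≠ 0)]
  · simp only [hφ, hlink]
    rw [bump_of_rad_le_one (show (1 : ℝ) ≤ L by linarith) (x := step x₀ (dir e₀) - x₀)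
      (rad_step_sub _ _).le, div_self (by linarith : log L ≠ 0), mul_one]
  have hφne : ∀ v, φ v ≠ 0 → rad (ℓ v - x₀) < L := fun v hv =>
    hmem _ fun h0 => hv (by simp [hφ, h0])
  have henergy : ∑ e, (φ (src e) - φ (dst e)) ^ 2 ≤ (π / 2) ^ 2 * (8 * π + C) / log L := by
    have e1 : ∀ e, (φ (src e) - φ (dst e)) ^ 2
        = (π / 2 / log L) ^ 2 * (bump L (ℓ (dst e) - x₀) - bump L (ℓ (src e) - x₀)) ^ 2 := by
      intro e
      simp only [hφ]
      ring
    simp only [e1, ← mul_sum]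
    refine (mul_le_mul_of_nonneg_left (h.energy_bump_le hC zero_le_one hL x₀ hsupp)
      (sq_nonneg _)).trans ?_
    rw [div_pow, div_mul_eq_mul_div, div_le_div_iff₀ (by positivity) (by linarith)]
    have h8 : 2 * π * (1 + 1) * (log L + 1) + C ≤ (8 * π + C) * log L := by
      nlinarith [pi_pos]
    nlinarith [mul_le_mul_of_nonneg_left h8 (show 0 ≤ (π / 2) ^ 2 * log L by positivity)]
  have hcard : ∑ e ∈ S, |c e| ≤ 32 * L ^ 2 * γ := by
    set N := ⌈L + 1⌉₊ with hN
    have hnear : ∀ e ∈ S, rad (ℓ (src e) - x₀) ≤ L + 1 := by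
      intro e he
      rcases (mem_filter.1 he).2 with h1 | h1
      · linarith [hφne _ h1]
      · have h2 := hφne _ h1
        rw [h.link e (Or.inr (hsupp _ h2))] at h2
        have h3 := rad_sub_le (ℓ (src e)) (step (ℓ (src e)) (dir e)) x₀
        rw [rad_sub_comm (ℓ (src e)) (step _ _), rad_step_sub] at h3
        linarith
    have hS : (S.card : ℝ) ≤ 32 * L ^ 2 := by
      have hle : S.card ≤ (box N ×ˢ (univ : Finset Bool)).card := by
        refine card_le_card_of_injOn (fun e => (ℓ (src e) - x₀, dir e)) (fun e he => ?_) ?_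
        · exact mem_product.2 ⟨mem_box_of_rad ((hnear e he).trans (Nat.le_ceil _)), mem_univ _⟩
        · intro e _ e' _ he
          simp only [Prod.mk.injEq, sub_left_inj] at he
          exact h.inj (Prod.ext he.1 he.2)
      rw [card_product, card_box, card_univ, Fintype.card_bool] at hle
      have : (S.card : ℝ) ≤ (2 * (N : ℝ) + 1) ^ 2 * 2 := by exact_mod_cast hle
      have hN2 := Nat.ceil_lt_add_one (show (0 : ℝ) ≤ L + 1 by linarith)
      refine this.trans ?_
      rw [show 32 * L ^ 2 = (4 * L) ^ 2 * 2 by ring]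
      refine mul_le_mul_of_nonneg_right (pow_le_pow_left₀ (by positivity) ?_ 2) zero_le_two
      linarith
    refine (sum_le_sum fun e he => hc e (hnear e he)).trans ?_
    rw [sum_const, nsmul_eq_mul]
    exact mul_le_mul_of_nonneg_right hS hγ
  have h5 := mul_le_mul_of_nonneg_left henergy hβ
  rw [← mul_div_assoc, ← mul_assoc] at h5
  linarith

/-- The two-centre profile. -/
noncomputable def prof (κ M : ℝ) (p q y : Site) : ℝ := κ * (bump M (y - p) - bump M (y - q))

/-- The coefficient of a bond in the tilt. -/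
noncomputable def tilt (β κ M : ℝ) (p q : Site) (src dst : E → V) (ℓ : V → Site) (e : E) : ℝ :=
  β * (cosh (prof κ M p q (ℓ (src e)) - prof κ M p q (ℓ (dst e))) - 1)

theorem bump_ne_zero {M : ℝ} (hM : 1 ≤ M) {y : Site} (h : bump M y ≠ 0) : rad y < M :=
  lt_of_not_ge fun hle => h (bump_eq_zero hM hle)

/-- The standing hypotheses on the two centres. -/
structure Centres (K : ℕ) (M : ℝ) (p q : Site) : Prop where
  big : 20 ≤ M
  dist : rad (q - p) = 3 * M
  inBox : ∀ y, rad (y - p) ≤ 4 * rad (q - p) + 4 → y ∈ box K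

namespace Centres

variable {M : ℝ} {p q : Site}

omit [Fintype V] [Fintype E] in
theorem one_le (h : Centres K M p q) : 1 ≤ M := by linarith [h.big]

omit [Fintype V] [Fintype E] in
theorem suppP (h : Centres K M p q) {y : Site} (hy : rad (y - p) < M) : y ∈ box K :=
  h.inBox y (by linarith [h.dist, h.big])

omit [Fintype V] [Fintype E] in
theorem suppQ (h : Centres K M p q) {y : Site} (hy : rad (y - q) < M) : y ∈ box K :=
  h.inBox y (by linarith [h.dist, h.big, rad_sub_le y q p])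

omit [Fintype V] [Fintype E] in
theorem triangle (x : Site) : rad (q - p) ≤ rad (x - p) + rad (x - q) := by
  have := rad_sub_le q x p
  rw [rad_sub_comm q x] at this
  linarith

omit [Fintype V] [Fintype E] in
theorem prof_ne (h : Centres K M p q) {κ : ℝ} {y : Site} (hy : prof κ M p q y ≠ 0) :
    rad (y - p) < M ∨ rad (y - q) < M := by
  by_contra hh
  rw [not_or, not_lt, not_lt] at hh
  exact hy (by simp [prof, bump_eq_zero h.one_le hh.1, bump_eq_zero h.one_le hh.2])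

omit [Fintype V] [Fintype E] in
theorem prof_box (h : Centres K M p q) {κ : ℝ} {y : Site} (hy : prof κ M p q y ≠ 0) :
    y ∈ box K :=
  (h.prof_ne hy).elim h.suppP h.suppQ

variable (hwin : IsWindow src dst ℓ dir K)

include hwin

omit [Fintype V] [Fintype E] in
theorem link_of_ne (h : Centres K M p q) {κ : ℝ} {e : E}
    (he : prof κ M p q (ℓ (src e)) - prof κ M p q (ℓ (dst e)) ≠ 0) :
    ℓ (dst e) = step (ℓ (src e)) (dir e) := by
  have hne : prof κ M p q (ℓ (src e)) ≠ 0 ∨ prof κ M p q (ℓ (dst e)) ≠ 0 := by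
    by_contra hh
    rw [not_or, not_ne_iff, not_ne_iff] at hh
    exact he (by rw [hh.1, hh.2, sub_zero])
  exact hwin.link e (hne.imp h.prof_box h.prof_box)

omit [Fintype V] [Fintype E] in
theorem near_of_ne (h : Centres K M p q) {c : Site} (hc : ∀ y, rad (y - c) < M → y ∈ box K)
    {e : E} (he : bump M (ℓ (dst e) - c) - bump M (ℓ (src e) - c) ≠ 0) :
    rad (ℓ (src e) - c) < M + 1 := by
  rcases eq_or_ne (bump M (ℓ (src e) - c)) 0 with h0 | h0
  · rw [h0, sub_zero] at he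
    have hd := bump_ne_zero h.one_le he
    have hst := hwin.link e (Or.inr (hc _ hd))
    have h3 := rad_sub_le (ℓ (src e)) (step (ℓ (src e)) (dir e)) c
    rw [rad_sub_comm (ℓ (src e)) (step _ _), rad_step_sub, ← hst] at h3
    linarith
  · linarith [bump_ne_zero h.one_le h0]

omit [Fintype V] [Fintype E] in
theorem sq_prof_sub (h : Centres K M p q) (κ : ℝ) (e : E) :
    (prof κ M p q (ℓ (src e)) - prof κ M p q (ℓ (dst e))) ^ 2
      = κ ^ 2 * ((bump M (ℓ (dst e) - p) - bump M (ℓ (src e) - p)) ^ 2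
        + (bump M (ℓ (dst e) - q) - bump M (ℓ (src e) - q)) ^ 2) := by
  have hz : (bump M (ℓ (dst e) - p) - bump M (ℓ (src e) - p))
      * (bump M (ℓ (dst e) - q) - bump M (ℓ (src e) - q)) = 0 := by
    by_contra hne
    obtain ⟨ha', hb'⟩ := mul_ne_zero_iff.1 hne
    have := h.near_of_ne hwin (fun y hy => h.suppP hy) ha'
    have := h.near_of_ne hwin (fun y hy => h.suppQ hy) hb'
    linarith [triangle (p := p) (q := q) (ℓ (src e)), h.dist, h.big]
  simp only [prof]
  linear_combination (-2 * κ ^ 2) * hz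

omit [Fintype V] [Fintype E] in
theorem abs_bump_le (h : Centres K M p q) {c : Site} (hc : ∀ y, rad (y - c) < M → y ∈ box K)
    {e : E} {k : ℝ} (hk : 3 ≤ k) (hck : k ≤ rad (ℓ (src e) - c)) :
    |bump M (ℓ (dst e) - c) - bump M (ℓ (src e) - c)| ≤ 8 / k := by
  rcases hwin.cases_bond (F := fun y => bump M (y - c))
      (fun y hy => hc y (bump_ne_zero h.one_le hy)) e with he | ⟨z1, z2⟩
  · have e1 : step (ℓ (src e)) (dir e) - c = step (ℓ (src e) - c) (dir e) := by
      ext <;> cases dir e <;> simp [step] <;> ring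
    rw [he, e1]
    exact ((abs_bump_sub_le M _ _).trans (abs_lg_step_le _ (hk.trans hck))).trans
      (div_le_div_of_nonneg_left (by norm_num) (by linarith) hck)
  · rw [z1, z2, sub_self, abs_zero]
    positivity

omit [Fintype V] [Fintype E] in
theorem abs_prof_le (h : Centres K M p q) {κ : ℝ} (hκ : 0 ≤ κ) {e : E} {k : ℝ} (hk : 3 ≤ k)
    (hp : k ≤ rad (ℓ (src e) - p)) (hq : k ≤ rad (ℓ (src e) - q)) :
    |prof κ M p q (ℓ (src e)) - prof κ M p q (ℓ (dst e))| ≤ 16 * κ / k := by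
  have a1 := h.abs_bump_le hwin (fun y hy => h.suppP hy) hk hp
  have b1 := h.abs_bump_le hwin (fun y hy => h.suppQ hy) hk hq
  have e1 : prof κ M p q (ℓ (src e)) - prof κ M p q (ℓ (dst e))
      = κ * ((bump M (ℓ (dst e) - q) - bump M (ℓ (src e) - q))
        - (bump M (ℓ (dst e) - p) - bump M (ℓ (src e) - p))) := by
    simp only [prof]
    ring
  rw [e1, abs_mul, abs_of_nonneg hκ, show 16 * κ / k = κ * (8 / k + 8 / k) by ring]
  refine mul_le_mul_of_nonneg_left ((abs_sub _ _).trans ?_) hκ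
  linarith

omit [Fintype V] [Fintype E] hwin in
theorem abs_prof_le_near (h : Centres K M p q) {κ : ℝ} (hκ : 0 ≤ κ) {e : E} {r : ℝ} (hr : 0 ≤ r)
    (hrM : r + 2 ≤ M) (he : rad (ℓ (src e) - p) < r ∨ rad (ℓ (src e) - q) < r)
    (hst : ℓ (dst e) = step (ℓ (src e)) (dir e)) :
    |prof κ M p q (ℓ (src e)) - prof κ M p q (ℓ (dst e))| ≤ κ * log (r + 1) := by
  have hb : ∀ c, rad (ℓ (src e) - c) < r →
      |bump M (ℓ (dst e) - c) - bump M (ℓ (src e) - c)| ≤ log (r + 1) := by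
    intro c hc
    refine (abs_bump_sub_le M _ _).trans ?_
    have h1 := lg_le (show (1 : ℝ) ≤ r + 1 by linarith) (x := ℓ (src e) - c) (by linarith)
    have h2 := lg_le (show (1 : ℝ) ≤ r + 1 by linarith) (x := ℓ (dst e) - c) (by
      rw [hst]
      have := rad_sub_le (step (ℓ (src e)) (dir e)) (ℓ (src e)) c
      rw [rad_step_sub] at this
      linarith)
    rw [abs_le]
    constructor <;> linarith [lg_nonneg (ℓ (src e) - c), lg_nonneg (ℓ (dst e) - c)]
  have hother : ∀ c, 2 * M + 2 ≤ rad (ℓ (src e) - c) →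
      bump M (ℓ (dst e) - c) = 0 ∧ bump M (ℓ (src e) - c) = 0 := by
    intro c hc
    refine ⟨bump_eq_zero h.one_le ?_, bump_eq_zero h.one_le (by linarith [h.big])⟩
    rw [hst]
    have := rad_sub_le (ℓ (src e)) (step (ℓ (src e)) (dir e)) c
    rw [rad_sub_comm (ℓ (src e)) (step _ _), rad_step_sub] at this
    linarith [h.big]
  have ht := triangle (p := p) (q := q) (ℓ (src e))
  have hd := h.dist
  rcases he with he | he
  · obtain ⟨z1, z2⟩ := hother q (by linarith)
    rw [prof, prof, z1, z2, sub_zero, sub_zero, ← mul_sub, abs_mul, abs_of_nonneg hκ, abs_sub_comm]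
    exact mul_le_mul_of_nonneg_left (hb p he) hκ
  · obtain ⟨z1, z2⟩ := hother p (by linarith)
    rw [prof, prof, z1, z2, zero_sub, zero_sub, ← mul_sub, abs_mul, abs_of_nonneg hκ,
      neg_sub_neg]
    exact mul_le_mul_of_nonneg_left (hb q he) hκ

end Centres

theorem exp_le_of_sq_le {d : ℝ} (h : d ^ 2 ≤ 1) : exp (d ^ 2 / 2) ≤ 2 :=
  (exp_le_exp.2 (show d ^ 2 / 2 ≤ log 2 by linarith [log_two_gt_d9])).trans
    (le_of_eq (exp_log two_pos))

/-- The contribution of a bond far from both centres. -/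
theorem far_term {n : ℕ} [NeZero n] {β κ ε ε' η r₀ Cw M : ℝ} {p q : Site}
    (hwin : IsWindow src dst ℓ dir K) (hcen : Centres K M p q)
    (hβ : 0 < β) (hκ : 0 < κ) (hε : 0 < ε) (hε1 : ε ≤ 1) (hε' : 0 < ε') (hε'4 : ε' ≤ 1 / 4)
    (hη : η = (ε / 4) ^ 2) (hεsq : 128 * (1024 * β * κ ^ 2) * ε' ^ 2 ≤ η / 2)
    (hr12 : 12 ≤ r₀) (hr32 : 64 * κ ≤ r₀) (hr16 : 16 * κ / ε ≤ r₀)
    (hrexp : (3 + exp (2 * β * (π / 2) ^ 2 * (8 * π + Cw) / η)) / ε' ≤ r₀) (hCw0 : 0 ≤ Cw)
    (hCw : ∀ L : ℕ, ∑ p ∈ box L ×ˢ (univ : Finset Bool),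
      (lg (step p.1 p.2) - lg p.1) ^ 2 ≤ 2 * π * (1 + 1) * log L + Cw)
    {i j : Fin n} (hij : i ≠ j) (e : E) (hp : r₀ ≤ rad (ℓ (src e) - p))
    (hq : r₀ ≤ rad (ℓ (src e) - q)) :
    tilt β κ M p q src dst ℓ e
        * avg (fun σ => energy β src dst σ + planar i j (tilt β κ M p q src dst ℓ) src dst σ)
            (fun σ => pdot i j (σ (src e)) (σ (dst e)))
      ≤ (2 / n + ε) * (β * (1 + ε) / 2)
        * (prof κ M p q (ℓ (src e)) - prof κ M p q (ℓ (dst e))) ^ 2 := by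
  set c := tilt β κ M p q src dst ℓ with hc
  have hn0 : (0 : ℝ) < n := Nat.cast_pos.2 (Nat.pos_of_neZero n)
  set d := prof κ M p q (ℓ (src e)) - prof κ M p q (ℓ (dst e)) with hd
  rcases eq_or_ne d 0 with h0 | h0
  · have : c e = 0 := by simp [hc, tilt, ← hd, h0]
    rw [this, zero_mul]
    positivity
  have hlink := hcen.link_of_ne hwin h0
  set k := min (rad (ℓ (src e) - p)) (rad (ℓ (src e) - q)) with hk
  have hkp : k ≤ rad (ℓ (src e) - p) := min_le_left _ _
  have hkq : k ≤ rad (ℓ (src e) - q) := min_le_right _ _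
  have hkr : r₀ ≤ k := le_min hp hq
  have hkM : k ≤ M + 1 := by
    have hor : prof κ M p q (ℓ (src e)) ≠ 0 ∨ prof κ M p q (ℓ (dst e)) ≠ 0 := by
      by_contra hh
      rw [not_or, not_ne_iff, not_ne_iff] at hh
      exact h0 (by rw [hd, hh.1, hh.2, sub_zero])
    rcases hor with h1 | h1
    · rcases hcen.prof_ne h1 with h2 | h2 <;> linarith
    · rw [hlink] at h1
      have h3 := rad_sub_le (ℓ (src e)) (step (ℓ (src e)) (dir e)) p
      have h4 := rad_sub_le (ℓ (src e)) (step (ℓ (src e)) (dir e)) q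
      rw [rad_sub_comm (ℓ (src e)) (step _ _), rad_step_sub] at h3 h4
      rcases hcen.prof_ne h1 with h2 | h2 <;> linarith
  set L := ε' * k with hLdef
  have hbig : 3 + exp (2 * β * (π / 2) ^ 2 * (8 * π + Cw) / η) ≤ L := by
    have := hrexp.trans hkr
    rw [div_le_iff₀ hε'] at this
    linarith
  have hL3 : 3 ≤ L := by linarith [exp_pos (2 * β * (π / 2) ^ 2 * (8 * π + Cw) / η)]
  have hk0 : 0 < k := by linarith
  have hLk : L ≤ k / 4 := by
    rw [hLdef]
    nlinarith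
  have hsupp : ∀ y, rad (y - ℓ (src e)) < L → y ∈ box K := by
    intro y hy
    refine hcen.inBox y ?_
    have h3 := rad_sub_le y (ℓ (src e)) p
    have h4 := rad_sub_le (ℓ (src e)) q p
    have := hcen.dist
    rcases min_choice (rad (ℓ (src e) - p)) (rad (ℓ (src e) - q)) with hh | hh <;>
      rw [← hk] at hh <;> linarith [hcen.big]
  have hγ : ∀ f, rad (ℓ (src f) - ℓ (src e)) ≤ L + 1 → |c f| ≤ 1024 * β * κ ^ 2 / k ^ 2 := by
    intro f hf
    have key : ∀ z, k ≤ rad (ℓ (src e) - z) → k / 2 ≤ rad (ℓ (src f) - z) := by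
      intro z hz
      have := rad_sub_le (ℓ (src e)) (ℓ (src f)) z
      rw [rad_sub_comm (ℓ (src e)) (ℓ (src f))] at this
      linarith
    have hs := hcen.abs_prof_le hwin hκ.le (e := f) (show 3 ≤ k / 2 by linarith) (key _ hkp)
      (key _ hkq)
    set d' := prof κ M p q (ℓ (src f)) - prof κ M p q (ℓ (dst f)) with hdd
    have hd2 : d' ^ 2 ≤ (32 * κ / k) ^ 2 := by
      rw [← sq_abs d']
      refine pow_le_pow_left₀ (abs_nonneg _) (hs.trans (le_of_eq ?_)) 2
      field_simp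
      ring
    have hd1 : d' ^ 2 ≤ 1 := hd2.trans (pow_le_one₀ (by positivity) (by
      rw [div_le_one hk0]; linarith))
    rw [hc, tilt, ← hdd, abs_of_nonneg (mul_nonneg hβ.le (by linarith [Real.one_le_cosh d']))]
    have hexp := exp_le_of_sq_le hd1
    have hcd : β * (cosh d' - 1) ≤ β * d' ^ 2 := by
      refine mul_le_mul_of_nonneg_left ((cosh_sub_one_le d').trans ?_) hβ.le
      nlinarith [sq_nonneg d']
    refine hcd.trans ((mul_le_mul_of_nonneg_left hd2 hβ.le).trans (le_of_eq ?_))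
    ring
  have hη0 : 0 < η := by
    rw [hη]
    positivity
  have hfb := hwin.far_bond hβ.le hij c e hlink hCw hCw0 hL3 hsupp
    (by positivity) hγ hη0 (by
      set B := β * (π / 2) ^ 2 * (8 * π + Cw) with hB
      have hB0 : 0 < B := by positivity
      have hlog : 2 * B / η ≤ log L := by
        rw [le_log_iff_exp_le (by linarith), show 2 * B / η
          = 2 * β * (π / 2) ^ 2 * (8 * π + Cw) / η by rw [hB]; ring]
        linarith
      have hlog0 : 0 < log L := log_pos (by linarith)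
      have h1 : B / log L ≤ η / 2 := by
        rw [div_le_iff₀ hlog0]
        rw [div_le_iff₀ hη0] at hlog
        linarith
      have h2 : 128 * (1024 * β * κ ^ 2 / k ^ 2) * L ^ 2
          = 128 * (1024 * β * κ ^ 2) * ε' ^ 2 := by
        rw [hLdef]
        field_simp
      linarith)
  have hsq : sqrt η = ε / 4 := by rw [hη, sqrt_sq (by positivity)]
  rw [hsq] at hfb
  have hs := hcen.abs_prof_le hwin hκ.le (e := e) (show 3 ≤ k by linarith) hkp hkq
  rw [← hd] at hs
  have hd1 : d ^ 2 ≤ ε := by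
    have h1 : 16 * κ / k ≤ ε := by
      have := hr16.trans hkr
      rw [div_le_iff₀ hε] at this
      rw [div_le_iff₀ hk0]
      linarith
    rw [← sq_abs]
    nlinarith [abs_nonneg d, hs.trans h1]
  have hexp : exp (d ^ 2 / 2) ≤ 1 + ε := by
    have := exp_sq_sub_one_le (u := d ^ 2 / 2)
    have := exp_le_of_sq_le (hd1.trans hε1)
    nlinarith [sq_nonneg d]
  have hc0 : 0 ≤ c e := mul_nonneg hβ.le (by linarith [Real.one_le_cosh d])
  have hcd : c e ≤ β * (1 + ε) / 2 * d ^ 2 := by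
    refine le_trans (mul_le_mul_of_nonneg_left ((cosh_sub_one_le d).trans
      (mul_le_mul_of_nonneg_left hexp (by positivity))) hβ.le) (le_of_eq ?_)
    ring
  refine (mul_le_mul_of_nonneg_left (show _ ≤ 2 / (n : ℝ) + ε by linarith [hfb]) hc0).trans ?_
  refine (mul_le_mul_of_nonneg_right hcd (by positivity)).trans (le_of_eq ?_)
  ring

/-- The sum over all bonds. -/
theorem tilt_sum_le {n : ℕ} [NeZero n] {β κ ε ε' η r₀ Cw Cs M : ℝ} {p q : Site}
    (hwin : IsWindow src dst ℓ dir K) (hcen : Centres K M p q)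
    (hβ : 0 < β) (hκ : 0 < κ) (hε : 0 < ε) (hε1 : ε ≤ 1) (hε' : 0 < ε') (hε'4 : ε' ≤ 1 / 4)
    (hη : η = (ε / 4) ^ 2) (hεsq : 128 * (1024 * β * κ ^ 2) * ε' ^ 2 ≤ η / 2)
    (hr12 : 12 ≤ r₀) (hr32 : 64 * κ ≤ r₀) (hr16 : 16 * κ / ε ≤ r₀)
    (hrexp : (3 + exp (2 * β * (π / 2) ^ 2 * (8 * π + Cw) / η)) / ε' ≤ r₀) (hCw0 : 0 ≤ Cw)
    (hCw : ∀ L : ℕ, ∑ p ∈ box L ×ˢ (univ : Finset Bool),
      (lg (step p.1 p.2) - lg p.1) ^ 2 ≤ 2 * π * (1 + 1) * log L + Cw)
    (hCs : ∀ L : ℕ, ∑ p ∈ box L ×ˢ (univ : Finset Bool),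
      (lg (step p.1 p.2) - lg p.1) ^ 2 ≤ 2 * π * (1 + ε) * log L + Cs)
    (hrM : r₀ + 2 ≤ M) {i j : Fin n} (hij : i ≠ j) :
    ∑ e, tilt β κ M p q src dst ℓ e
        * avg (fun σ => energy β src dst σ + planar i j (tilt β κ M p q src dst ℓ) src dst σ)
            (fun σ => pdot i j (σ (src e)) (σ (dst e)))
      ≤ κ ^ 2 * ((2 / n + ε) * (β * (1 + ε) / 2) * (2 * (2 * π * (1 + ε)))) * log M
        + (4 * (box ⌈r₀⌉₊).card * (β * (cosh (κ * log (r₀ + 1)) - 1))
          + (2 / n + ε) * (β * (1 + ε) / 2) * κ ^ 2 * (2 * (2 * π * (1 + ε) + Cs))) := by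
  classical
  set c := tilt β κ M p q src dst ℓ with hc
  set U : Conf V n → ℝ := fun σ => energy β src dst σ + planar i j c src dst σ with hU
  set d : E → ℝ := fun e => prof κ M p q (ℓ (src e)) - prof κ M p q (ℓ (dst e)) with hd
  have hUc : Continuous U := by fun_prop
  have hn0 : (0 : ℝ) < n := Nat.cast_pos.2 (Nat.pos_of_neZero n)
  set near : Finset E := Finset.univ.filter fun e =>
    d e ≠ 0 ∧ (rad (ℓ (src e) - p) < r₀ ∨ rad (ℓ (src e) - q) < r₀) with hnear
  set c₀ := β * (cosh (κ * log (r₀ + 1)) - 1) with hc₀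
  have hc₀0 : 0 ≤ c₀ := mul_nonneg hβ.le (by linarith [Real.one_le_cosh (κ * log (r₀ + 1))])
  have h1 : ∑ e ∈ near, c e * avg U (fun σ => pdot i j (σ (src e)) (σ (dst e)))
      ≤ 4 * (box ⌈r₀⌉₊).card * c₀ := by
    have hce : ∀ e ∈ near, c e * avg U (fun σ => pdot i j (σ (src e)) (σ (dst e))) ≤ c₀ := by
      intro e he
      simp only [hnear, mem_filter, mem_univ, true_and] at he
      obtain ⟨h0, hr⟩ := he
      refine (mul_le_of_le_one_right
        (mul_nonneg hβ.le (by linarith [Real.one_le_cosh (d e)])) ?_).trans ?_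
      · rw [← avg_const (V := V) hUc 1]
        exact avg_mono hUc (by fun_prop) continuous_const
          fun σ => (abs_le.1 (abs_pdot_le hij _ _)).2
      refine mul_le_mul_of_nonneg_left (sub_le_sub_right ?_ 1) hβ.le
      rw [cosh_le_cosh, abs_of_nonneg (mul_nonneg hκ.le (log_nonneg (by linarith)))]
      exact hcen.abs_prof_le_near hκ.le (by linarith) hrM hr (hcen.link_of_ne hwin h0)
    refine (sum_le_sum hce).trans ?_
    rw [sum_const, nsmul_eq_mul]
    refine mul_le_mul_of_nonneg_right ?_ hc₀0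
    set N₀ := ⌈r₀⌉₊
    have hle : near.card ≤ (((box N₀).image (· + p) ∪ (box N₀).image (· + q))
        ×ˢ (univ : Finset Bool)).card := by
      refine card_le_card_of_injOn (fun e => (ℓ (src e), dir e)) (fun e he => ?_)
        (fun e _ e' _ he => hwin.inj he)
      simp only [hnear, mem_coe, mem_filter, mem_univ, true_and] at he
      refine mem_product.2 ⟨mem_union.2 ?_, mem_univ _⟩
      rcases he.2 with h1 | h1
      · exact Or.inl (mem_image.2 ⟨ℓ (src e) - p,
          mem_box_of_rad (h1.le.trans (Nat.le_ceil _)), by simp⟩)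
      · exact Or.inr (mem_image.2 ⟨ℓ (src e) - q,
          mem_box_of_rad (h1.le.trans (Nat.le_ceil _)), by simp⟩)
    rw [card_product, card_univ, Fintype.card_bool] at hle
    have h1 := card_union_le ((box N₀).image (· + p)) ((box N₀).image (· + q))
    have h2 := card_image_le (s := box N₀) (f := (· + p))
    have h3 := card_image_le (s := box N₀) (f := (· + q))
    have : near.card ≤ 4 * (box N₀).card := by omega
    exact_mod_cast this
  have h2 : ∑ e ∈ nearᶜ, c e * avg U (fun σ => pdot i j (σ (src e)) (σ (dst e)))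
      ≤ (2 / n + ε) * (β * (1 + ε) / 2) * ∑ e, d e ^ 2 := by
    rw [mul_sum]
    refine (sum_le_sum fun e he => ?_).trans
      (sum_le_sum_of_subset_of_nonneg (subset_univ _) fun e _ _ => by positivity)
    simp only [hnear, mem_compl, mem_filter, mem_univ, true_and, not_and, not_or, not_lt] at he
    rcases eq_or_ne (d e) 0 with h0 | h0
    · have : c e = 0 := by
        simp only [hd] at h0
        simp [hc, tilt, h0]
      rw [this, zero_mul]
      positivity
    · exact far_term hwin hcen hβ hκ hε hε1 hε' hε'4 hη hεsq hr12 hr32 hr16 hrexp hCw0 hCw hij e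
        (he h0).1 (he h0).2
  have h3 : ∑ e, d e ^ 2 ≤ κ ^ 2 * (2 * (2 * π * (1 + ε) * (log M + 1) + Cs)) := by
    simp only [hd, hcen.sq_prof_sub hwin, ← mul_sum, sum_add_distrib]
    refine mul_le_mul_of_nonneg_left ?_ (sq_nonneg κ)
    have ea := hwin.energy_bump_le hCs hε.le (show (3 : ℝ) ≤ M by linarith) p
      fun y hy => hcen.suppP hy
    have eb := hwin.energy_bump_le hCs hε.le (show (3 : ℝ) ≤ M by linarith) q
      fun y hy => hcen.suppQ hy
    linarith
  rw [← sum_add_sum_compl near]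
  have h4 := mul_le_mul_of_nonneg_left h3
    (show (0 : ℝ) ≤ (2 / n + ε) * (β * (1 + ε) / 2) by positivity)
  linarith

/-- A choice of the slack in the exponent. -/
theorem exists_slack {a ρ A : ℝ} (h : ρ * A < 1) : ∃ ε : ℝ, 0 < ε ∧ ε ≤ 1 ∧
    ρ * (A * ((1 + ε) ^ 2 * (1 + a * ε / 2))) ≤ 1 := by
  have hcont : Continuous fun ε : ℝ => ρ * (A * ((1 + ε) ^ 2 * (1 + a * ε / 2))) := by fun_prop
  have hev := (hcont.tendsto 0).eventually (eventually_le_nhds (b := 1) (by simpa using h))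
  obtain ⟨δ, hδ, hδ'⟩ := Metric.eventually_nhds_iff.1 hev
  refine ⟨min 1 (δ / 2), by positivity, min_le_left _ _, hδ' ?_⟩
  rw [Real.dist_eq, sub_zero, abs_of_pos (by positivity)]
  linarith [min_le_right (1 : ℝ) (δ / 2)]

/-- A choice of the scales. -/
theorem exists_scales {G η κ ε X : ℝ} (hG : 0 ≤ G) (hη : 0 < η) (hκ : 0 < κ) (hε : 0 < ε)
    (hX : 0 ≤ X) : ∃ ε' r₀ : ℝ, 0 < ε' ∧ ε' ≤ 1 / 4 ∧ G * ε' ^ 2 ≤ η / 2 ∧
      12 ≤ r₀ ∧ 64 * κ ≤ r₀ ∧ 16 * κ / ε ≤ r₀ ∧ X / ε' ≤ r₀ := by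
  set e := min (1 / 4) (sqrt (η / 2 / (G + 1))) with he
  have he0 : 0 < e := lt_min (by norm_num) (sqrt_pos.2 (by positivity))
  have h1 : G * e ^ 2 ≤ η / 2 := by
    have h1 : e ^ 2 ≤ η / 2 / (G + 1) := by
      refine (pow_le_pow_left₀ he0.le (min_le_right _ _) 2).trans (le_of_eq ?_)
      rw [sq_sqrt (by positivity)]
    rw [le_div_iff₀ (by positivity)] at h1
    nlinarith [sq_nonneg e]
  have a : 0 ≤ 64 * κ := by positivity
  have b : 0 ≤ 16 * κ / ε := by positivity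
  have c : 0 ≤ X / e := by positivity
  exact ⟨e, 12 + 64 * κ + 16 * κ / ε + X / e, he0, min_le_left _ _, h1, by linarith, by linarith,
    by linarith, by linarith⟩

/-- The trivial bound. -/
theorem abs_avg_dot_le_one {n : ℕ} [NeZero n] (β : ℝ) (src dst : E → V) (a b : V) :
    |avg (energy β src dst) (fun σ : Conf V n => dot (σ a) (σ b))| ≤ 1 := by
  have hU : Continuous (energy (n := n) β src dst) := continuous_energy _ _ _
  rw [abs_le]
  constructor
  · rw [← avg_const (V := V) hU (-1)]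
    exact avg_mono hU continuous_const (by fun_prop) fun σ => (abs_le.1 (abs_dot_le _ _)).1
  · rw [← avg_const (V := V) hU 1]
    exact avg_mono hU (by fun_prop) continuous_const fun σ => (abs_le.1 (abs_dot_le _ _)).2

/-- The bound at large distance, from the bound on the tilt. -/
theorem large_bound {n : ℕ} [NeZero n] {β κ ρ M C₁ : ℝ} {a b : V}
    (hcen : Centres K M (ℓ a) (ℓ b)) (hρκ : ρ ≤ κ) {i j : Fin n} (hij : i ≠ j)
    (hX : ∑ e, tilt β κ M (ℓ a) (ℓ b) src dst ℓ e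
      * avg (fun σ => energy β src dst σ
          + planar i j (tilt β κ M (ℓ a) (ℓ b) src dst ℓ) src dst σ)
        (fun σ => pdot i j (σ (src e)) (σ (dst e))) ≤ κ * log M + C₁) :
    |avg (energy β src dst) (fun σ : Conf V n => dot (σ a) (σ b))|
      ≤ (n : ℝ) / 2 * exp C₁ * M ^ (-ρ) := by
  have hM := hcen.one_le
  have h0 : rad (0 : Site) ≤ 1 := by simp [rad, emb, Complex.norm_def, Complex.normSq_apply]
  have hψa : prof κ M (ℓ a) (ℓ b) (ℓ a) - prof κ M (ℓ a) (ℓ b) (ℓ b) = 2 * κ * log M := by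
    simp only [prof, sub_self, bump_of_rad_le_one hM h0]
    rw [bump_eq_zero hM (x := ℓ a - ℓ b) (by
        rw [rad_sub_comm]; linarith [hcen.dist, hcen.big]),
      bump_eq_zero hM (x := ℓ b - ℓ a) (by linarith [hcen.dist, hcen.big])]
    ring
  have main := abs_avg_dot_le β src dst hij (fun v => prof κ M (ℓ a) (ℓ b) (ℓ v)) a b (n := n)
  refine main.trans ?_
  simp only [hψa]
  unfold tilt at hX
  have hlM : 0 ≤ log M := log_nonneg hM
  have hρ' : ρ * log M ≤ κ * log M := mul_le_mul_of_nonneg_right hρκ hlM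
  refine (mul_le_mul_of_nonneg_left (exp_le_exp.2 (show _ ≤ -ρ * log M + C₁ by
    linarith [hX])) (by positivity)).trans ?_
  rw [exp_add, mul_comm (-ρ), ← rpow_def_of_pos (by linarith : 0 < M)]
  exact le_of_eq (by ring)

/-- Algebraic decay in a window, with every exponent below `n / (4 π β)`. -/
theorem exists_window_bound {n : ℕ} (hn : 2 ≤ n) {β : ℝ} (hβ : 0 < β) {ρ : ℝ}
    (hρ0 : 0 < ρ) (hρ : ρ < n / (4 * π * β)) :
    ∃ C : ℝ, 0 < C ∧ ∀ (V E : Type) [Fintype V] [Fintype E] (src dst : E → V) (ℓ : V → Site)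
      (dir : E → Bool) (K : ℕ) (a b : V), IsWindow src dst ℓ dir K → ℓ a ≠ ℓ b →
      (∀ y, rad (y - ℓ a) ≤ 4 * rad (ℓ b - ℓ a) + 4 → y ∈ box K) →
      |avg (energy β src dst) (fun σ : Conf V n => dot (σ a) (σ b))|
        ≤ C * rad (ℓ b - ℓ a) ^ (-ρ) := by
  have : NeZero n := ⟨by omega⟩
  have hij : (⟨0, by omega⟩ : Fin n) ≠ ⟨1, by omega⟩ := by simp [Fin.ext_iff]
  have hn0 : (0 : ℝ) < n := by exact_mod_cast (by omega : 0 < n)
  have hρA : ρ * (4 * π * β / n) < 1 := by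
    rw [lt_div_iff₀ (by positivity)] at hρ
    rw [mul_div_assoc', div_lt_one hn0]
    exact hρ
  obtain ⟨ε, hε0, hε1, hεA⟩ := exists_slack (a := (n : ℝ)) hρA
  obtain ⟨κ, hκ0, hρκ, hκA⟩ : ∃ κ : ℝ, 0 < κ ∧ ρ ≤ κ ∧
      κ * (4 * π * β / n * ((1 + ε) ^ 2 * (1 + n * ε / 2))) = 1 := by
    refine ⟨1 / (4 * π * β / n * ((1 + ε) ^ 2 * (1 + n * ε / 2))), by positivity, ?_, ?_⟩
    · rw [le_div_iff₀ (by positivity)]
      exact hεA
    · exact one_div_mul_cancel (by positivity)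
  obtain ⟨Cs, hCs0, hCs⟩ := exists_energy_le hε0 hε1
  obtain ⟨Cw, hCw0, hCw⟩ := exists_energy_le (ε := 1) one_pos le_rfl
  obtain ⟨ε', r₀, hε'0, hε'4, hεsq, hr12, hr32, hr16, hrexp⟩ :=
    exists_scales (G := 128 * (1024 * β * κ ^ 2)) (η := (ε / 4) ^ 2) (κ := κ) (ε := ε)
      (X := 3 + exp (2 * β * (π / 2) ^ 2 * (8 * π + Cw) / (ε / 4) ^ 2))
      (by positivity) (by positivity) hκ0 hε0 (by positivity)
  obtain ⟨C₁, hC₁⟩ : ∃ C₁, C₁ = 4 * (box ⌈r₀⌉₊).card * (β * (cosh (κ * log (r₀ + 1)) - 1))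
      + (2 / (n : ℝ) + ε) * (β * (1 + ε) / 2) * κ ^ 2 * (2 * (2 * π * (1 + ε) + Cs)) := ⟨_, rfl⟩
  have e1 : κ ^ 2 * ((2 / (n : ℝ) + ε) * (β * (1 + ε) / 2) * (2 * (2 * π * (1 + ε)))) = κ := by
    have e0 : (2 / (n : ℝ) + ε) * (β * (1 + ε) / 2) * (2 * (2 * π * (1 + ε)))
        = 4 * π * β / n * ((1 + ε) ^ 2 * (1 + n * ε / 2)) := by
      field_simp
      ring
    rw [e0, sq, mul_assoc, hκA, mul_one]
  have hP : 0 < (n : ℝ) / 2 * exp C₁ * 3 ^ ρ :=
    mul_pos (mul_pos (by linarith) (exp_pos _)) (rpow_pos_of_pos (by norm_num) _)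
  have hQ : 0 < (3 * (r₀ + 20)) ^ ρ := rpow_pos_of_pos (by linarith) _
  refine ⟨(n : ℝ) / 2 * exp C₁ * 3 ^ ρ + (3 * (r₀ + 20)) ^ ρ, by linarith, ?_⟩
  intro V E _ _ src dst ℓ dir K a b hwin hab hbox
  obtain ⟨D, hD⟩ : ∃ D, D = rad (ℓ b - ℓ a) := ⟨_, rfl⟩
  rw [← hD]
  have hD1 : 1 ≤ D := hD ▸ one_le_rad (sub_ne_zero.2 (Ne.symm hab))
  have h2 : 0 ≤ D ^ (-ρ) := rpow_nonneg (by linarith) _
  rcases lt_or_ge D (3 * (r₀ + 20)) with hDs | hDl
  · refine (abs_avg_dot_le_one β src dst a b).trans ?_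
    have h1 : 1 ≤ (3 * (r₀ + 20)) ^ ρ * D ^ (-ρ) := by
      rw [rpow_neg (by linarith), ← div_eq_mul_inv, one_le_div (rpow_pos_of_pos (by linarith) _)]
      exact rpow_le_rpow (by linarith) hDs.le hρ0.le
    nlinarith [mul_nonneg hP.le h2]
  have hcen : Centres K (D / 3) (ℓ a) (ℓ b) :=
    ⟨by linarith, by rw [← hD]; ring, hbox⟩
  have hX := tilt_sum_le hwin hcen hβ hκ0 hε0 hε1 hε'0 hε'4 rfl hεsq hr12 hr32 hr16 hrexp hCw0
    hCw hCs (by linarith) hij
  rw [e1, ← hC₁] at hX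
  refine (large_bound hcen hρκ hij hX).trans ?_
  have h3 : (D / 3) ^ (-ρ) = 3 ^ ρ * D ^ (-ρ) := by
    rw [div_rpow (by linarith) (by norm_num), rpow_neg (by norm_num : (0 : ℝ) ≤ 3),
      div_inv_eq_mul, mul_comm]
  rw [h3]
  nlinarith [mul_nonneg hQ.le h2]

end Vale.Agent.P163
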