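import Vale.Agent.P163.States
import Mathlib.MeasureTheory.Measure.Tilted
import Mathlib.MeasureTheory.Measure.Prokhorov
import Mathlib.MeasureTheory.Measure.LevyProkhorovMetric

/-!
# Infinite-volume states exist
-/

namespace Vale.Agent.P163

open MeasureTheory Filter
open scoped BoundedContinuousFunction

variable {n : ℕ}

/-- The periodic Gibbs measure, seen on configurations of the whole lattice. -/
noncomputable def periodicGibbs (n : ℕ) (β : ℝ) (k : ℕ) : Measure (Site → Spin n) :=
  ((base (Torus k k) n).tilted (energy β (torusSrc k k) (torusDst k k))).map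
    (fun σ x => σ (toTorus k k x))

theorem isProbability_periodicGibbs [NeZero n] (β : ℝ) (k : ℕ) :
    IsProbabilityMeasure (periodicGibbs n β k) := by
  have := isProbabilityMeasure_tilted (μ := base (Torus k k) n)
    (f := energy β (torusSrc k k) (torusDst k k)) (integrable_base (by fun_prop))
  exact Measure.isProbabilityMeasure_map
    (measurable_pi_lambda _ fun x => measurable_pi_apply (toTorus k k x)).aemeasurable

theorem integral_periodicGibbs [NeZero n] (β : ℝ) (k : ℕ) (F : Finset Site)
    {g : (↥F → Spin n) → ℝ} (hg : Continuous g) :
    ∫ σ, g (F.restrict σ) ∂periodicGibbs n β k = torusMean β k k F g := by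
  have hm : Continuous fun σ : Site → Spin n => g (F.restrict σ) :=
    hg.comp (continuous_pi fun x => continuous_apply x.1)
  rw [periodicGibbs,
    integral_map (measurable_pi_lambda _ fun x => measurable_pi_apply (toTorus k k x)).aemeasurable
      hm.aestronglyMeasurable, integral_tilted,
    torusMean, avg, ← integral_div]
  refine integral_congr_ae (Eventually.of_forall fun σ => ?_)
  simp only [smul_eq_mul, Finset.restrict_def]
  ring

/-- An infinite-volume state exists at every inverse temperature. -/
theorem exists_limit_state [NeZero n] (β : ℝ) :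
    ∃ μ : Measure (Site → Spin n), IsLimitState n β μ := by
  set P : ℕ → ProbabilityMeasure (Site → Spin n) :=
    fun k => ⟨periodicGibbs n β k, isProbability_periodicGibbs β k⟩
  obtain ⟨m, φ, hφ, hlim⟩ := CompactSpace.tendsto_subseq P
  refine ⟨(m : Measure (Site → Spin n)), inferInstance, fun k => .inr (φ k, φ k), fun K => ?_,
    fun F g hg => ?_⟩
  · filter_upwards [hφ.tendsto_atTop.eventually (eventually_ge_atTop K)] with k hk
    exact ⟨hk, hk⟩
  · have hm : Continuous fun σ : Site → Spin n => g (F.restrict σ) :=
      hg.comp (continuous_pi fun x => continuous_apply x.1)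
    have h := ProbabilityMeasure.tendsto_iff_forall_integral_tendsto.1 hlim
      (BoundedContinuousFunction.mkOfCompact ⟨_, hm⟩)
    refine h.congr fun k => ?_
    exact integral_periodicGibbs β (φ k) F hg

end Vale.Agent.P163
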