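import Mathlib.MeasureTheory.Constructions.HaarToSphere
import Mathlib.MeasureTheory.Measure.Haar.InnerProductSpace
import Mathlib.MeasureTheory.Constructions.Pi
import Mathlib.Analysis.SpecialFunctions.Trigonometric.Series
import Mathlib.Analysis.InnerProductSpace.PiL2
import Mathlib.Tactic

/-!
# The uniform measure on the unit sphere and rotations in coordinate planes
-/

namespace Vale.Agent.P163

open MeasureTheory Set Metric
open scoped RealInnerProductSpace Pointwise

/-- Spins: unit vectors in `ℝ ^ n`. -/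
abbrev Spin (n : ℕ) : Type := sphere (0 : EuclideanSpace ℝ (Fin n)) 1

variable {n : ℕ}

/-- The normalised uniform measure on the sphere. -/
noncomputable def uniform (n : ℕ) : Measure (Spin n) :=
  ((volume : Measure (EuclideanSpace ℝ (Fin n))).toSphere univ)⁻¹ •
    (volume : Measure (EuclideanSpace ℝ (Fin n))).toSphere

/-- Coordinate `i` of a spin. -/
def co (s : Spin n) (i : Fin n) : ℝ := (s : EuclideanSpace ℝ (Fin n)) i

/-- Scalar product of two spins. -/
noncomputable def dot (s t : Spin n) : ℝ :=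
  inner ℝ (s : EuclideanSpace ℝ (Fin n)) (t : EuclideanSpace ℝ (Fin n))

theorem dot_eq (s t : Spin n) : dot s t = ∑ i, co s i * co t i := by
  simp [dot, co, PiLp.inner_apply, mul_comm]

theorem co_sq_sum (s : Spin n) : ∑ i, co s i ^ 2 = 1 := by
  have h : ‖(s : EuclideanSpace ℝ (Fin n))‖ = 1 := by simp
  have h2 := EuclideanSpace.real_norm_sq_eq (s : EuclideanSpace ℝ (Fin n))
  rw [h, one_pow] at h2
  exact h2.symm

theorem abs_dot_le (s t : Spin n) : |dot s t| ≤ 1 := by
  have h := abs_real_inner_le_norm (s : EuclideanSpace ℝ (Fin n)) (t : EuclideanSpace ℝ (Fin n))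
  simpa [dot] using h

@[fun_prop]
theorem continuous_co (i : Fin n) : Continuous fun s : Spin n => co s i :=
  (PiLp.continuous_apply 2 _ i).comp continuous_subtype_val

@[fun_prop]
theorem continuous_dot : Continuous fun p : Spin n × Spin n => dot p.1 p.2 := by
  simp only [dot]
  fun_prop

instance instProbabilityUniform [NeZero n] : IsProbabilityMeasure (uniform n) := by
  have : Nontrivial (EuclideanSpace ℝ (Fin n)) :=
    Module.nontrivial_of_finrank_pos (R := ℝ) (by simpa using Nat.pos_of_neZero n)
  refine ⟨?_⟩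
  rw [uniform, Measure.smul_apply, smul_eq_mul, ENNReal.inv_mul_cancel]
  · simp only [ne_eq, Measure.measure_univ_eq_zero]
    exact Measure.toSphere_ne_zero _
  · exact measure_ne_top _ _

/-- The action of a linear isometry on spins. -/
noncomputable def sphereMap (L : EuclideanSpace ℝ (Fin n) ≃ₗᵢ[ℝ] EuclideanSpace ℝ (Fin n)) (s : Spin n) :
    Spin n :=
  ⟨L s, by simp⟩

theorem continuous_sphereMap
    (L : EuclideanSpace ℝ (Fin n) ≃ₗᵢ[ℝ] EuclideanSpace ℝ (Fin n)) :
    Continuous (sphereMap L) :=
  (L.continuous.comp continuous_subtype_val).subtype_mk _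

theorem measurePreserving_sphereMap
    (L : EuclideanSpace ℝ (Fin n) ≃ₗᵢ[ℝ] EuclideanSpace ℝ (Fin n)) :
    MeasurePreserving (sphereMap L) (uniform n) (uniform n) := by
  have hm : Measurable (sphereMap L) := (continuous_sphereMap L).measurable
  refine MeasurePreserving.smul_measure ⟨hm, ?_⟩ _
  refine Measure.ext fun s hs => ?_
  rw [Measure.map_apply hm hs, Measure.toSphere_apply' _ (hm hs), Measure.toSphere_apply' _ hs]
  congr 1
  have e : Ioo (0 : ℝ) 1 • ((↑) '' (sphereMap L ⁻¹' s))
      = L.toMeasurableEquiv ⁻¹' (Ioo (0 : ℝ) 1 • ((↑) '' s)) := by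
    ext x
    simp only [mem_smul, mem_image, mem_preimage, LinearIsometryEquiv.coe_toMeasurableEquiv]
    constructor
    · rintro ⟨r, hr, _, ⟨a, ha, rfl⟩, rfl⟩
      exact ⟨r, hr, _, ⟨sphereMap L a, ha, rfl⟩, by simp [sphereMap]⟩
    · rintro ⟨r, hr, _, ⟨a, ha, rfl⟩, hx⟩
      refine ⟨r, hr, _, ⟨sphereMap L.symm a, ?_, rfl⟩, ?_⟩
      · have : sphereMap L (sphereMap L.symm a) = a := Subtype.ext (by simp [sphereMap])
        rw [this]
        exact ha
      · rw [show x = L.symm (r • (a : EuclideanSpace ℝ (Fin n))) by rw [hx]; simp]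
        simp [sphereMap]
  rw [e]
  exact L.measurePreserving.measure_preimage_equiv (f := L.toMeasurableEquiv) _

/-- The rotation by `θ` of coordinates `i`, `j`, as a map. -/
noncomputable def rotFun (i j : Fin n) (θ : ℝ) (x : EuclideanSpace ℝ (Fin n)) :
    EuclideanSpace ℝ (Fin n) :=
  WithLp.toLp 2 fun k => if k = i then Real.cos θ * x i - Real.sin θ * x j
    else if k = j then Real.sin θ * x i + Real.cos θ * x j else x k

theorem rotFun_rotFun {i j : Fin n} (h : i ≠ j) (θ : ℝ) (x : EuclideanSpace ℝ (Fin n)) :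
    rotFun i j (-θ) (rotFun i j θ x) = x := by
  refine PiLp.ext fun k => ?_
  simp only [rotFun, Real.cos_neg, Real.sin_neg]
  have e := Real.sin_sq_add_cos_sq θ
  by_cases h1 : k = i
  · subst h1
    simp [Ne.symm h]
    linear_combination (x k) * e
  · by_cases h2 : k = j
    · subst h2
      simp [h1]
      linear_combination (x k) * e
    · simp [h1, h2]

theorem sum_split {M : Type} [AddCommMonoid M] {i j : Fin n} (h : i ≠ j) (f : Fin n → M) :
    ∑ k, f k = f i + f j + ∑ k ∈ (Finset.univ.erase i).erase j, f k := by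
  rw [← Finset.add_sum_erase _ f (Finset.mem_univ i),
    ← Finset.add_sum_erase _ f (Finset.mem_erase.2 ⟨Ne.symm h, Finset.mem_univ j⟩), add_assoc]

theorem norm_rotFun {i j : Fin n} (h : i ≠ j) (θ : ℝ) (x : EuclideanSpace ℝ (Fin n)) :
    ‖rotFun i j θ x‖ = ‖x‖ := by
  rw [← sq_eq_sq₀ (norm_nonneg _) (norm_nonneg _), EuclideanSpace.real_norm_sq_eq,
    EuclideanSpace.real_norm_sq_eq, sum_split h, sum_split h]
  have e : ∀ k ∈ (Finset.univ.erase i).erase j, rotFun i j θ x k ^ 2 = x k ^ 2 := by
    intro k hk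
    simp only [Finset.mem_erase] at hk
    simp [rotFun, hk.1, hk.2.1]
  rw [Finset.sum_congr rfl e]
  congr 1
  simp [rotFun, Ne.symm h]
  linear_combination (x i ^ 2 + x j ^ 2) * Real.sin_sq_add_cos_sq θ

/-- The rotation by `θ` of coordinates `i`, `j`. -/
noncomputable def rot {i j : Fin n} (h : i ≠ j) (θ : ℝ) :
    EuclideanSpace ℝ (Fin n) ≃ₗᵢ[ℝ] EuclideanSpace ℝ (Fin n) where
  toFun := rotFun i j θ
  invFun := rotFun i j (-θ)
  left_inv := rotFun_rotFun h θ
  right_inv x := by simpa using rotFun_rotFun h (-θ) x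
  map_add' x y := by
    refine PiLp.ext fun k => ?_
    simp only [rotFun, PiLp.add_apply]
    split_ifs <;> ring
  map_smul' c x := by
    refine PiLp.ext fun k => ?_
    simp only [rotFun, PiLp.smul_apply, smul_eq_mul, RingHom.id_apply]
    split_ifs <;> ring
  norm_map' := norm_rotFun h θ

/-- A rotated spin. -/
noncomputable def turn {i j : Fin n} (h : i ≠ j) (θ : ℝ) (s : Spin n) : Spin n :=
  sphereMap (rot h θ) s

theorem co_turn_fst {i j : Fin n} (h : i ≠ j) (θ : ℝ) (s : Spin n) :
    co (turn h θ s) i = Real.cos θ * co s i - Real.sin θ * co s j := by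
  simp [co, turn, sphereMap, rot, rotFun]

theorem co_turn_snd {i j : Fin n} (h : i ≠ j) (θ : ℝ) (s : Spin n) :
    co (turn h θ s) j = Real.sin θ * co s i + Real.cos θ * co s j := by
  simp [co, turn, sphereMap, rot, rotFun, Ne.symm h]

theorem co_turn_other {i j k : Fin n} (h : i ≠ j) (hi : k ≠ i) (hj : k ≠ j) (θ : ℝ) (s : Spin n) :
    co (turn h θ s) k = co s k := by
  simp [co, turn, sphereMap, rot, rotFun, hi, hj]

theorem turn_zero {i j : Fin n} (h : i ≠ j) (s : Spin n) : turn h 0 s = s := by
  refine Subtype.ext (PiLp.ext fun k => ?_)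
  simp [turn, sphereMap, rot, rotFun]
  split_ifs with a b <;> simp_all

theorem turn_neg_turn {i j : Fin n} (h : i ≠ j) (θ : ℝ) (s : Spin n) :
    turn h (-θ) (turn h θ s) = s :=
  Subtype.ext (rotFun_rotFun h θ _)

/-- Scalar product in the plane `i`, `j`. -/
def pdot (i j : Fin n) (s t : Spin n) : ℝ := co s i * co t i + co s j * co t j

/-- Cross product in the plane `i`, `j`. -/
def pcross (i j : Fin n) (s t : Spin n) : ℝ := co s j * co t i - co s i * co t j

theorem plane_sq_le {i j : Fin n} (h : i ≠ j) (s : Spin n) : co s i ^ 2 + co s j ^ 2 ≤ 1 := by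
  rw [← co_sq_sum s, sum_split h]
  exact le_add_of_nonneg_right (Finset.sum_nonneg fun k _ => sq_nonneg _)

theorem pdot_sq_add_pcross_sq {i j : Fin n} (h : i ≠ j) (s t : Spin n) :
    pdot i j s t ^ 2 + pcross i j s t ^ 2 ≤ 1 := by
  have e : pdot i j s t ^ 2 + pcross i j s t ^ 2
      = (co s i ^ 2 + co s j ^ 2) * (co t i ^ 2 + co t j ^ 2) := by
    simp only [pdot, pcross]
    ring
  rw [e]
  exact mul_le_one₀ (plane_sq_le h s) (by positivity) (plane_sq_le h t)

theorem abs_pdot_le {i j : Fin n} (h : i ≠ j) (s t : Spin n) : |pdot i j s t| ≤ 1 :=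
  abs_le_one_iff_mul_self_le_one.2 (by
    nlinarith [pdot_sq_add_pcross_sq h s t, sq_nonneg (pcross i j s t)])

theorem dot_turn {i j : Fin n} (h : i ≠ j) (a b : ℝ) (s t : Spin n) :
    dot (turn h a s) (turn h b t) = dot s t + (Real.cos (a - b) - 1) * pdot i j s t
      - Real.sin (a - b) * pcross i j s t := by
  rw [dot_eq, dot_eq, sum_split h, sum_split h]
  have e : ∀ k ∈ (Finset.univ.erase i).erase j,
      co (turn h a s) k * co (turn h b t) k = co s k * co t k := by
    intro k hk
    simp only [Finset.mem_erase] at hk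
    rw [co_turn_other h hk.2.1 hk.1, co_turn_other h hk.2.1 hk.1]
  rw [Finset.sum_congr rfl e, co_turn_fst, co_turn_fst, co_turn_snd, co_turn_snd, Real.cos_sub,
    Real.sin_sub, pdot, pcross]
  ring

theorem pdot_turn {i j : Fin n} (h : i ≠ j) (a b : ℝ) (s t : Spin n) :
    pdot i j (turn h a s) (turn h b t)
      = Real.cos (a - b) * pdot i j s t - Real.sin (a - b) * pcross i j s t := by
  simp only [pdot, pcross, co_turn_fst, co_turn_snd, Real.cos_sub, Real.sin_sub]
  ring

theorem pcross_turn {i j : Fin n} (h : i ≠ j) (a b : ℝ) (s t : Spin n) :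
    pcross i j (turn h a s) (turn h b t)
      = Real.sin (a - b) * pdot i j s t + Real.cos (a - b) * pcross i j s t := by
  simp only [pdot, pcross, co_turn_fst, co_turn_snd, Real.cos_sub, Real.sin_sub]
  ring

/-- Configurations on a vertex set. -/
abbrev Conf (V : Type) (n : ℕ) : Type := V → Spin n

variable {V : Type} [Fintype V]

/-- Independent uniform spins. -/
noncomputable def base (V : Type) [Fintype V] (n : ℕ) : Measure (Conf V n) :=
  Measure.pi fun _ => uniform n

instance instProbabilityBase [NeZero n] : IsProbabilityMeasure (base V n) := by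
  unfold base
  infer_instance

theorem integrable_base [NeZero n] {E : Type} [NormedAddCommGroup E] [SecondCountableTopology E]
    [MeasurableSpace E] [BorelSpace E] {f : Conf V n → E}
    (hf : Continuous f) : Integrable f (base V n) :=
  hf.integrable_of_hasCompactSupport (HasCompactSupport.of_compactSpace f)

/-- Rotating every spin by its own angle. -/
noncomputable def turnAll {i j : Fin n} (h : i ≠ j) (φ : V → ℝ) (σ : Conf V n) : Conf V n :=
  fun x => turn h (φ x) (σ x)

theorem measurePreserving_turnAll [NeZero n] {i j : Fin n} (h : i ≠ j) (φ : V → ℝ) :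
    MeasurePreserving (turnAll h φ) (base V n) (base V n) :=
  measurePreserving_pi (fun _ => uniform n) (fun _ => uniform n)
    fun x => measurePreserving_sphereMap (rot h (φ x))

omit [Fintype V] in
@[fun_prop]
theorem continuous_turnAll {i j : Fin n} (h : i ≠ j) (φ : V → ℝ) :
    Continuous (turnAll (V := V) h φ) :=
  continuous_pi fun x => (continuous_sphereMap _).comp (continuous_apply x)

theorem integral_turnAll [NeZero n] {E : Type} [NormedAddCommGroup E] [NormedSpace ℝ E]
    [SecondCountableTopology E] [MeasurableSpace E] [BorelSpace E]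
    {i j : Fin n} (h : i ≠ j) (φ : V → ℝ) {f : Conf V n → E} (hf : Continuous f) :
    ∫ σ, f (turnAll h φ σ) ∂base V n = ∫ σ, f σ ∂base V n := by
  have hm := measurePreserving_turnAll (V := V) h φ
  conv_rhs => rw [← hm.map_eq]
  rw [integral_map hm.measurable.aemeasurable hf.aestronglyMeasurable]

end Vale.Agent.P163
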