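import Vale.Agent.P163.Sphere
import Mathlib.Analysis.Calculus.ParametricIntegral
import Mathlib.Analysis.Complex.CauchyIntegral
import Mathlib.Analysis.Analytic.IsolatedZeros
import Mathlib.Analysis.SpecialFunctions.Trigonometric.Deriv

/-!
# Gibbs averages on a finite graph and the complex rotation bound
-/

namespace Vale.Agent.P163

open MeasureTheory

variable {n : ℕ} {V E : Type} [Fintype V] [Fintype E]

/-- The average of `f` under the weight `exp U`. -/
noncomputable def avg (U f : Conf V n → ℝ) : ℝ :=
  (∫ σ, Real.exp (U σ) * f σ ∂base V n) / ∫ σ, Real.exp (U σ) ∂base V n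

/-- The interaction of the bonds `e`, joining `src e` to `dst e`. -/
noncomputable def energy (β : ℝ) (src dst : E → V) (σ : Conf V n) : ℝ :=
  β * ∑ e, dot (σ (src e)) (σ (dst e))

/-- A linear combination of planar bond terms. -/
noncomputable def planar (i j : Fin n) (c : E → ℝ) (src dst : E → V) (σ : Conf V n) : ℝ :=
  ∑ e, c e * pdot i j (σ (src e)) (σ (dst e))

@[fun_prop]
theorem continuous_dot_apply {X : Type} [TopologicalSpace X] {f g : X → Spin n}
    (hf : Continuous f) (hg : Continuous g) : Continuous fun x => dot (f x) (g x) := by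
  simp only [dot]
  fun_prop

@[fun_prop]
theorem continuous_co_apply {X : Type} [TopologicalSpace X] {f : X → Spin n} (hf : Continuous f)
    (i : Fin n) : Continuous fun x => co (f x) i :=
  (continuous_co i).comp hf

@[fun_prop]
theorem continuous_pdot_apply {X : Type} [TopologicalSpace X] {f g : X → Spin n}
    (hf : Continuous f) (hg : Continuous g) (i j : Fin n) :
    Continuous fun x => pdot i j (f x) (g x) := by
  simp only [pdot]
  fun_prop

@[fun_prop]
theorem continuous_pcross_apply {X : Type} [TopologicalSpace X] {f g : X → Spin n}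
    (hf : Continuous f) (hg : Continuous g) (i j : Fin n) :
    Continuous fun x => pcross i j (f x) (g x) := by
  simp only [pcross]
  fun_prop

omit [Fintype V] in
@[fun_prop]
theorem continuous_energy (β : ℝ) (src dst : E → V) :
    Continuous (energy (n := n) β src dst) := by
  unfold energy
  fun_prop

omit [Fintype V] in
@[fun_prop]
theorem continuous_planar (i j : Fin n) (c : E → ℝ) (src dst : E → V) :
    Continuous (planar i j c src dst) := by
  unfold planar
  fun_prop

theorem weight_pos [NeZero n] {U : Conf V n → ℝ} (hU : Continuous U) :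
    0 < ∫ σ, Real.exp (U σ) ∂base V n :=
  integral_exp_pos (integrable_base (by fun_prop))

section Average

variable [NeZero n] {U f g : Conf V n → ℝ}

theorem avg_mono (hU : Continuous U) (hf : Continuous f) (hg : Continuous g)
    (h : ∀ σ, f σ ≤ g σ) : avg U f ≤ avg U g :=
  div_le_div_of_nonneg_right
    (integral_mono (integrable_base (by fun_prop)) (integrable_base (by fun_prop))
      fun σ => mul_le_mul_of_nonneg_left (h σ) (Real.exp_nonneg _))
    (weight_pos hU).le

theorem avg_const (hU : Continuous U) (c : ℝ) : avg U (fun _ => c) = c := by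
  rw [avg, integral_mul_const, mul_div_assoc, mul_comm, div_mul_cancel₀]
  exact (weight_pos hU).ne'

theorem avg_sum (hU : Continuous U) {ι : Type} (s : Finset ι) {F : ι → Conf V n → ℝ}
    (hF : ∀ k ∈ s, Continuous (F k)) :
    avg U (fun σ => ∑ k ∈ s, F k σ) = ∑ k ∈ s, avg U (F k) := by
  simp only [avg, Finset.mul_sum]
  rw [integral_finsetSum _ fun k hk => integrable_base ?_, Finset.sum_div]
  have := hF k hk
  fun_prop

omit [NeZero n] in
theorem avg_const_mul (c : ℝ) : avg U (fun σ => c * f σ) = c * avg U f := by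
  simp only [avg, mul_left_comm _ c]
  rw [integral_const_mul, mul_div_assoc]

/-- Jensen's inequality in the form used below. -/
theorem log_tilt_le (hU : Continuous U) (hX : Continuous f) :
    (∫ σ, Real.exp (U σ + f σ) ∂base V n)
      ≤ (∫ σ, Real.exp (U σ) ∂base V n) * Real.exp (avg (fun σ => U σ + f σ) f) := by
  set m := avg (fun σ => U σ + f σ) f with hm
  set Z₁ := ∫ σ, Real.exp (U σ + f σ) ∂base V n
  have hZ₁ : 0 < Z₁ := weight_pos (by fun_prop)
  have hI : ∫ σ, Real.exp (U σ + f σ) * f σ ∂base V n = m * Z₁ := by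
    rw [hm, avg, div_mul_cancel₀ _ hZ₁.ne']
  have key : Real.exp (-m) * Z₁ ≤ ∫ σ, Real.exp (U σ) ∂base V n := by
    have hle : ∫ σ, (Real.exp (-m) * ((1 + m) * Real.exp (U σ + f σ)
        - Real.exp (U σ + f σ) * f σ)) ∂base V n ≤ ∫ σ, Real.exp (U σ) ∂base V n := by
      refine integral_mono (integrable_base (by fun_prop)) (integrable_base (by fun_prop))
        fun σ => ?_
      have a := Real.add_one_le_exp (m - f σ)
      have b : Real.exp (U σ) = Real.exp (-m) * Real.exp (U σ + f σ) * Real.exp (m - f σ) := by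
        rw [← Real.exp_add, ← Real.exp_add]
        ring_nf
      rw [b]
      refine le_trans (le_of_eq ?_) (mul_le_mul_of_nonneg_left a (by positivity))
      ring
    refine le_trans (le_of_eq ?_) hle
    rw [integral_const_mul, integral_sub (integrable_base (by fun_prop))
      (integrable_base (by fun_prop)), integral_const_mul, hI]
    ring
  rw [Real.exp_neg, inv_mul_le_iff₀ (Real.exp_pos _)] at key
  linarith

end Average

/-- Entire functions agree everywhere with their constant value on the real line. -/
theorem eq_of_const_on_real {G : ℂ → ℂ} (hG : Differentiable ℂ G)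
    (h : ∀ t : ℝ, G t = G 0) (z : ℂ) : G z = G 0 := by
  have ha : AnalyticOnNhd ℂ G Set.univ := fun w _ => hG.analyticAt w
  refine ha.eqOn_of_preconnected_of_frequently_eq analyticOnNhd_const isPreconnected_univ
    (Set.mem_univ (0 : ℂ)) ?_ (Set.mem_univ z)
  have ht : Filter.Tendsto (fun t : ℝ => (t : ℂ)) (nhdsWithin 0 {0}ᶜ)
      (nhdsWithin (0 : ℂ) {0}ᶜ) := by
    refine tendsto_nhdsWithin_of_tendsto_nhds_of_eventually_within _ ?_ ?_
    · exact (Complex.continuous_ofReal.tendsto' 0 0 Complex.ofReal_zero).mono_left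
        nhdsWithin_le_nhds
    · filter_upwards [self_mem_nhdsWithin] with t ht
      simpa using ht
  exact ht.frequently (Filter.Eventually.frequently (Filter.Eventually.of_forall h))

section Rotate

variable [NeZero n] {i j : Fin n} (hij : i ≠ j) (β : ℝ) (src dst : E → V) (ψ : V → ℝ) (a b : V)

/-- The exponent of the complexified rotated weight. -/
noncomputable def cxExp (i j : Fin n) (β : ℝ) (src dst : E → V) (ψ : V → ℝ) (a b : V)
    (σ : Conf V n) (z : ℂ) : ℂ :=
  (β : ℂ) * ∑ e, ((dot (σ (src e)) (σ (dst e)) : ℂ)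
      + (Complex.cos ((ψ (src e) - ψ (dst e) : ℝ) * z) - 1) * pdot i j (σ (src e)) (σ (dst e))
      - Complex.sin ((ψ (src e) - ψ (dst e) : ℝ) * z) * pcross i j (σ (src e)) (σ (dst e)))
    + Complex.I * (ψ a - ψ b : ℝ) * z

/-- The observable `w_a` times the conjugate of `w_b`. -/
noncomputable def cxObs (i j : Fin n) (a b : V) (σ : Conf V n) : ℂ :=
  (pdot i j (σ a) (σ b) : ℂ) + Complex.I * pcross i j (σ a) (σ b)

/-- The derivative of `cxExp`. -/
noncomputable def cxExp' (i j : Fin n) (β : ℝ) (src dst : E → V) (ψ : V → ℝ) (a b : V)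
    (σ : Conf V n) (z : ℂ) : ℂ :=
  (β : ℂ) * ∑ e, (-Complex.sin ((ψ (src e) - ψ (dst e) : ℝ) * z) * (ψ (src e) - ψ (dst e) : ℝ)
        * pdot i j (σ (src e)) (σ (dst e))
      - Complex.cos ((ψ (src e) - ψ (dst e) : ℝ) * z) * (ψ (src e) - ψ (dst e) : ℝ)
        * pcross i j (σ (src e)) (σ (dst e)))
    + Complex.I * (ψ a - ψ b : ℝ)

omit [Fintype V] [NeZero n] in
theorem hasDerivAt_cxExp (σ : Conf V n) (z : ℂ) :
    HasDerivAt (cxExp i j β src dst ψ a b σ) (cxExp' i j β src dst ψ a b σ z) z := by
  unfold cxExp cxExp'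
  refine HasDerivAt.add ?_ ?_
  · refine HasDerivAt.const_mul _ (HasDerivAt.fun_sum fun e _ => ?_)
    have hd := (hasDerivAt_id z).const_mul ((ψ (src e) - ψ (dst e) : ℝ) : ℂ)
    have hc := (((Complex.hasDerivAt_cos _).comp z hd).sub_const 1).mul_const
      (pdot i j (σ (src e)) (σ (dst e)) : ℂ)
    have hs := ((Complex.hasDerivAt_sin _).comp z hd).mul_const
      (pcross i j (σ (src e)) (σ (dst e)) : ℂ)
    exact ((hc.const_add _).sub hs).congr_deriv (by simp)
  · simpa using (hasDerivAt_id z).const_mul (Complex.I * ((ψ a - ψ b : ℝ) : ℂ))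

/-- The integrand. -/
noncomputable def cxWeight (i j : Fin n) (β : ℝ) (src dst : E → V) (ψ : V → ℝ) (a b : V)
    (z : ℂ) (σ : Conf V n) : ℂ :=
  Complex.exp (cxExp i j β src dst ψ a b σ z) * cxObs i j a b σ

omit [Fintype V] [NeZero n] in
theorem continuous_cxWeight (z : ℂ) : Continuous (cxWeight i j β src dst ψ a b z) := by
  unfold cxWeight cxExp cxObs
  fun_prop

theorem differentiable_rotIntegral :
    Differentiable ℂ fun z => ∫ σ, cxWeight i j β src dst ψ a b z σ ∂base V n := by
  intro z₀
  have hc : Continuous fun p : ℂ × Conf V n =>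
      cxWeight i j β src dst ψ a b p.1 p.2 * cxExp' i j β src dst ψ a b p.2 p.1 := by
    unfold cxWeight cxExp cxExp' cxObs
    fun_prop
  obtain ⟨B, hB⟩ := ((isCompact_closedBall z₀ 1).prod isCompact_univ).exists_bound_of_continuousOn
    hc.continuousOn
  refine (hasDerivAt_integral_of_dominated_loc_of_deriv_le (bound := fun _ => B)
    (Metric.closedBall_mem_nhds z₀ one_pos)
    (Filter.Eventually.of_forall fun z =>
      (continuous_cxWeight β src dst ψ a b z).aestronglyMeasurable)
    (integrable_base (continuous_cxWeight β src dst ψ a b z₀))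
    (F' := fun z σ => cxWeight i j β src dst ψ a b z σ * cxExp' i j β src dst ψ a b σ z)
    (hc.comp (Continuous.prodMk_right z₀)).aestronglyMeasurable
    (Filter.Eventually.of_forall fun σ z hz => hB (z, σ) ⟨hz, Set.mem_univ _⟩)
    (integrable_const B) (Filter.Eventually.of_forall fun σ z _ => ?_)).2.differentiableAt
  refine ((hasDerivAt_cxExp (i := i) (j := j) β src dst ψ a b σ z).cexp.mul_const
    (cxObs i j a b σ)).congr_deriv ?_
  simp only [cxWeight]
  ring

include hij in
omit [Fintype V] [NeZero n] in
theorem cxWeight_real (t : ℝ) (σ : Conf V n) :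
    cxWeight i j β src dst ψ a b t σ
      = cxWeight i j β src dst ψ a b 0 (turnAll hij (fun x => t * ψ x) σ) := by
  have h1 : cxExp i j β src dst ψ a b (turnAll hij (fun x => t * ψ x) σ) 0
      = (β : ℂ) * ∑ e, ((dot (σ (src e)) (σ (dst e)) : ℂ)
      + (Complex.cos ((ψ (src e) - ψ (dst e) : ℝ) * t) - 1) * pdot i j (σ (src e)) (σ (dst e))
      - Complex.sin ((ψ (src e) - ψ (dst e) : ℝ) * t) * pcross i j (σ (src e)) (σ (dst e))) := by
    simp only [cxExp, mul_zero, add_zero, Complex.cos_zero, sub_self, zero_mul, Complex.sin_zero,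
      sub_zero]
    congr 1
    refine Finset.sum_congr rfl fun e _ => ?_
    simp only [turnAll]
    rw [dot_turn hij, show t * ψ (src e) - t * ψ (dst e) = (ψ (src e) - ψ (dst e)) * t by ring]
    push_cast
    ring
  have h2 : cxObs i j a b (turnAll hij (fun x => t * ψ x) σ)
      = Complex.exp (Complex.I * (ψ a - ψ b : ℝ) * t) * cxObs i j a b σ := by
    simp only [cxObs, turnAll]
    rw [pdot_turn hij, pcross_turn hij,
      show Complex.I * (ψ a - ψ b : ℝ) * t = ((t * ψ a - t * ψ b : ℝ) : ℂ) * Complex.I by
        push_cast; ring, Complex.exp_mul_I]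
    push_cast
    linear_combination (-(Complex.sin (↑t * ↑(ψ a) - ↑t * ↑(ψ b))
      * (pcross i j (σ a) (σ b) : ℂ))) * Complex.I_sq
  simp only [cxWeight, cxExp]
  rw [Complex.exp_add, h2]
  simp only [cxExp] at h1
  rw [h1]
  ring

include hij in
/-- The McBryan–Spencer bound with the planar energy kept. -/
theorem rotate_bound :
    |∫ σ, Real.exp (energy β src dst σ) * pdot i j (σ a) (σ b) ∂base V n|
      ≤ Real.exp (-(ψ a - ψ b)) * ∫ σ, Real.exp (energy β src dst σ
          + planar i j (fun e => β * (Real.cosh (ψ (src e) - ψ (dst e)) - 1)) src dst σ)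
          ∂base V n := by
  set G : ℂ → ℂ := fun z => ∫ σ, cxWeight i j β src dst ψ a b z σ ∂base V n with hG
  have hconst : ∀ t : ℝ, G t = G 0 := by
    intro t
    simp only [hG, cxWeight_real hij β src dst ψ a b t]
    exact integral_turnAll hij _ (continuous_cxWeight β src dst ψ a b 0)
  have h0 : (G 0).re = ∫ σ, Real.exp (energy β src dst σ) * pdot i j (σ a) (σ b) ∂base V n := by
    simp only [hG, ← Complex.reCLM_apply]
    rw [← ContinuousLinearMap.integral_comp_comm _
      (integrable_base (continuous_cxWeight β src dst ψ a b 0))]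
    refine integral_congr_ae (Filter.Eventually.of_forall fun σ => ?_)
    simp [cxWeight, cxExp, cxObs, energy, Complex.mul_re, Complex.exp_re, Complex.exp_im,
      Finset.mul_sum]
  have key := eq_of_const_on_real (differentiable_rotIntegral β src dst ψ a b) hconst Complex.I
  change G Complex.I = G 0 at key
  rw [← h0, ← key]
  refine ((Complex.abs_re_le_norm _).trans (norm_integral_le_integral_norm _)).trans ?_
  rw [← integral_const_mul]
  refine integral_mono
    (integrable_base (continuous_cxWeight β src dst ψ a b Complex.I)).norm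
    (integrable_base (by fun_prop)) fun σ => ?_
  have hO : ‖cxObs i j a b σ‖ ≤ 1 := by
    rw [← sq_le_one_iff₀ (norm_nonneg _), Complex.sq_norm, Complex.normSq_apply]
    simp [cxObs]
    nlinarith [pdot_sq_add_pcross_sq hij (σ a) (σ b)]
  simp only [cxWeight, norm_mul, Complex.norm_exp]
  refine (mul_le_of_le_one_right (Real.exp_nonneg _) hO).trans (le_of_eq ?_)
  rw [← Real.exp_add]
  congr 1
  simp [-Complex.ofReal_sub, cxExp, energy, planar, Complex.cos_mul_I, Complex.sin_mul_I, Finset.mul_sum,
    Complex.re_sum, Finset.sum_add_distrib,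
    mul_add, Complex.mul_re]
  ring_nf

end Rotate

end Vale.Agent.P163
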