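import Vale.Agent.P163.Decay
import Mathlib.Algebra.Field.ZMod
import Mathlib.Data.ZMod.ValMinAbs
import Mathlib.MeasureTheory.Measure.ProbabilityMeasure

/-!
# Free and periodic volumes, and infinite-volume states
-/

namespace Vale.Agent.P163

open MeasureTheory Filter Finset

/-- The bonds of a finite set of sites: a site of the set and a positive direction whose
neighbour is also in the set. -/
abbrev FreeBond (Λ : Finset Site) : Type := {p : ↥Λ × Bool // step p.1 p.2 ∈ Λ}

/-- First end of a free bond. -/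
def freeSrc (Λ : Finset Site) (e : FreeBond Λ) : ↥Λ := e.1.1

/-- Second end of a free bond. -/
def freeDst (Λ : Finset Site) (e : FreeBond Λ) : ↥Λ := ⟨step e.1.1 e.1.2, e.2⟩

/-- The torus with sides `a + 1` and `b + 1`. -/
abbrev Torus (a b : ℕ) : Type := ZMod (a + 1) × ZMod (b + 1)

/-- The neighbour of a torus site in a positive direction. -/
def torusStep {a b : ℕ} (v : Torus a b) (d : Bool) : Torus a b :=
  if d then (v.1 + 1, v.2) else (v.1, v.2 + 1)

/-- First end of a torus bond. -/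
def torusSrc (a b : ℕ) (e : Torus a b × Bool) : Torus a b := e.1

/-- Second end of a torus bond. -/
def torusDst (a b : ℕ) (e : Torus a b × Bool) : Torus a b := torusStep e.1 e.2

/-- The image of a lattice site on the torus. -/
def toTorus (a b : ℕ) (x : Site) : Torus a b := (x.1, x.2)

variable {n : ℕ}

/-- Expectation of `g`, a function of the spins in `F`, in the free volume `Λ`. -/
noncomputable def freeMean (β : ℝ) (Λ F : Finset Site) (g : (↥F → Spin n) → ℝ) : ℝ :=
  if h : F ⊆ Λ then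
    avg (energy β (freeSrc Λ) (freeDst Λ)) (fun σ : Conf ↥Λ n => g fun x => σ ⟨x.1, h x.2⟩)
  else 0

/-- Expectation of `g`, a function of the spins in `F`, on the torus. -/
noncomputable def torusMean (β : ℝ) (a b : ℕ) (F : Finset Site) (g : (↥F → Spin n) → ℝ) : ℝ :=
  avg (energy β (torusSrc a b) (torusDst a b))
    (fun σ : Conf (Torus a b) n => g fun x => σ (toTorus a b x.1))

/-- A volume: a finite set with free boundary, or a torus. -/
abbrev Volume : Type := Finset Site ⊕ ℕ × ℕ

/-- Expectation in a volume. -/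
noncomputable def volMean (β : ℝ) : Volume → (F : Finset Site) → ((↥F → Spin n) → ℝ) → ℝ
  | .inl Λ => freeMean β Λ
  | .inr ab => torusMean β ab.1 ab.2

/-- A volume is large at scale `K` if it contains the box, or both sides exceed `K`. -/
def IsLarge (K : ℕ) : Volume → Prop
  | .inl Λ => box K ⊆ Λ
  | .inr ab => K ≤ ab.1 ∧ K ≤ ab.2

/-- An infinite-volume state: a probability measure on configurations of `ℤ × ℤ` which is a
local weak limit of free or periodic volumes exhausting the lattice. -/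
def IsLimitState (n : ℕ) (β : ℝ) (μ : Measure (Site → Spin n)) : Prop :=
  IsProbabilityMeasure μ ∧ ∃ v : ℕ → Volume,
    (∀ K, ∀ᶠ k in atTop, IsLarge K (v k)) ∧
    ∀ (F : Finset Site) (g : (↥F → Spin n) → ℝ), Continuous g →
      Tendsto (fun k => volMean β (v k) F g) atTop (nhds (∫ σ, g (F.restrict σ) ∂μ))

theorem isWindow_free (Λ : Finset Site) (K : ℕ) :
    IsWindow (freeSrc Λ) (freeDst Λ) (fun v : ↥Λ => (v : Site)) (fun e => e.1.2) K where
  inj e e' h := by
    simp only [freeSrc, Prod.mk.injEq] at h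
    exact Subtype.ext (Prod.ext (Subtype.ext h.1) h.2)
  link _ _ := rfl

/-- The centred representative of a torus site. -/
def centred {a b : ℕ} (v : Torus a b) : Site := (v.1.valMinAbs, v.2.valMinAbs)

theorem valMinAbs_cast {L : ℕ} [NeZero L] {z : ℤ} {K : ℕ} (hz : |z| ≤ K) (hL : 2 * K < L) :
    (z : ZMod L).valMinAbs = z := by
  refine (ZMod.valMinAbs_spec _ _).2 ⟨rfl, ?_⟩
  rw [abs_le] at hz
  constructor <;> omega

theorem valMinAbs_add_one {L : ℕ} [NeZero L] {v : ZMod L} {K : ℕ} (hL : 2 * K + 2 < L)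
    (h : |v.valMinAbs| ≤ K ∨ |(v + 1).valMinAbs| ≤ K) :
    (v + 1).valMinAbs = v.valMinAbs + 1 := by
  rcases h with h | h
  · refine (ZMod.valMinAbs_spec _ _).2 ⟨by simp, ?_⟩
    rw [abs_le] at h
    constructor <;> omega
  · have e : v.valMinAbs = (v + 1).valMinAbs - 1 := by
      refine (ZMod.valMinAbs_spec _ _).2 ⟨by simp, ?_⟩
      rw [abs_le] at h
      constructor <;> omega
    omega

theorem isWindow_torus {a b K : ℕ} (ha : 2 * K + 2 < a + 1) (hb : 2 * K + 2 < b + 1) :
    IsWindow (torusSrc a b) (torusDst a b) centred (fun e : Torus a b × Bool => e.2) K where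
  inj e e' h := by
    simp only [torusSrc, centred, Prod.mk.injEq] at h
    exact Prod.ext (Prod.ext (ZMod.injective_valMinAbs h.1.1) (ZMod.injective_valMinAbs h.1.2)) h.2
  link e h := by
    obtain ⟨⟨v, w⟩, d⟩ := e
    simp only [torusSrc, torusDst, torusStep, centred, mem_box] at h ⊢
    cases d <;> simp only [Bool.false_eq_true, if_false, if_true] at h ⊢ <;>
      simp only [step, Bool.false_eq_true, if_false, if_true, Prod.mk.injEq, true_and, and_true]
    · exact valMinAbs_add_one hb (h.imp (·.2) (·.2))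
    · exact valMinAbs_add_one ha (h.imp (·.1) (·.1))

theorem centred_toTorus {a b K : ℕ} (ha : 2 * K < a + 1) (hb : 2 * K < b + 1) {x : Site}
    (hx : x ∈ box K) : centred (toTorus a b x) = x := by
  rw [mem_box] at hx
  simp only [centred, toTorus, valMinAbs_cast hx.1 ha, valMinAbs_cast hx.2 hb]

/-- The bound assumed of a window, for the exponent `ρ` and the constant `C`. -/
def WindowBound (n : ℕ) (β ρ C : ℝ) : Prop :=
  ∀ (V E : Type) [Fintype V] [Fintype E] (src dst : E → V) (ℓ : V → Site)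
      (dir : E → Bool) (K : ℕ) (a b : V), IsWindow src dst ℓ dir K → ℓ a ≠ ℓ b →
      (∀ y, rad (y - ℓ a) ≤ 4 * rad (ℓ b - ℓ a) + 4 → y ∈ box K) →
      |avg (energy β src dst) (fun σ : Conf V n => dot (σ a) (σ b))|
        ≤ C * rad (ℓ b - ℓ a) ^ (-ρ)

theorem free_bound {β ρ C : ℝ} (H : WindowBound n β ρ C) {Λ F : Finset Site} {K : ℕ}
    (hF : F ⊆ Λ) (x y : ↥F) (hxy : x.1 ≠ y.1)
    (hball : ∀ z, rad (z - x.1) ≤ 4 * rad (y.1 - x.1) + 4 → z ∈ box K) :
    |freeMean β Λ F (fun τ : ↥F → Spin n => dot (τ x) (τ y))| ≤ C * rad (y.1 - x.1) ^ (-ρ) := by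
  rw [freeMean, dif_pos hF]
  exact H ↥Λ (FreeBond Λ) (freeSrc Λ) (freeDst Λ) (fun v => (v : Site)) (fun e => e.1.2) K
    ⟨x.1, hF x.2⟩ ⟨y.1, hF y.2⟩ (isWindow_free Λ K) hxy hball

theorem torus_bound {β ρ C : ℝ} (H : WindowBound n β ρ C) {a b : ℕ} {F : Finset Site} {K : ℕ}
    (ha : 2 * K + 2 < a + 1) (hb : 2 * K + 2 < b + 1) (x y : ↥F) (hxy : x.1 ≠ y.1)
    (hx : x.1 ∈ box K) (hy : y.1 ∈ box K)
    (hball : ∀ z, rad (z - x.1) ≤ 4 * rad (y.1 - x.1) + 4 → z ∈ box K) :
    |torusMean β a b F (fun τ : ↥F → Spin n => dot (τ x) (τ y))|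
      ≤ C * rad (y.1 - x.1) ^ (-ρ) := by
  have hx' : centred (toTorus a b x.1) = x.1 := centred_toTorus (by omega) (by omega) hx
  have hy' : centred (toTorus a b y.1) = y.1 := centred_toTorus (by omega) (by omega) hy
  have h := H (Torus a b) (Torus a b × Bool) (torusSrc a b) (torusDst a b) centred (fun e => e.2) K
    (toTorus a b x.1) (toTorus a b y.1) (isWindow_torus ha hb)
  rw [hx', hy'] at h
  rw [torusMean]
  exact h hxy hball

/-- Algebraic decay in every infinite-volume state, with every exponent below `n / (4 π β)`. -/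
theorem limit_state_decay {n : ℕ} (hn : 2 ≤ n) {β : ℝ} (hβ : 0 < β) {ρ : ℝ}
    (hρ : ρ < n / (4 * Real.pi * β)) :
    ∃ C : ℝ, 0 < C ∧ ∀ μ : Measure (Site → Spin n), IsLimitState n β μ → ∀ x y : Site, x ≠ y →
      |∫ σ, dot (σ x) (σ y) ∂μ| ≤ C * rad (y - x) ^ (-ρ) := by
  have hlim : (0 : ℝ) < n / (4 * Real.pi * β) :=
    div_pos (by exact_mod_cast (by omega : 0 < n)) (by positivity)
  obtain ⟨ρ', hρρ', hρ'0, hρ'⟩ : ∃ ρ', ρ ≤ ρ' ∧ 0 < ρ' ∧ ρ' < n / (4 * Real.pi * β) := by
    refine ⟨max ρ ((n / (4 * Real.pi * β)) / 2), le_max_left _ _, ?_, max_lt hρ (by linarith)⟩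
    exact lt_max_of_lt_right (by linarith)
  obtain ⟨C, hC, hmain⟩ := exists_window_bound hn hβ hρ'0 hρ'
  refine ⟨C, hC, fun μ hμ x y hxy => ?_⟩
  obtain ⟨-, v, hv, hlim'⟩ := hμ
  set D := rad (y - x)
  have hD : 1 ≤ D := one_le_rad (sub_ne_zero.2 (Ne.symm hxy))
  obtain ⟨K, hK⟩ := exists_nat_ge (rad x + 4 * D + 5)
  have hball : ∀ z, rad (z - x) ≤ 4 * D + 4 → z ∈ box K := fun z hz => by
    refine mem_box_of_rad ?_
    have h := rad_sub_le z x 0
    simp only [sub_zero] at h
    linarith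
  have hxK : x ∈ box K := hball x (by
    have h0 : rad (0 : Site) = 0 := by simp [rad, emb, Complex.ext_iff]
    rw [sub_self, h0]
    linarith)
  have hyK : y ∈ box K := hball y (by linarith)
  set g : (↥({x, y} : Finset Site) → Spin n) → ℝ :=
    fun τ => dot (τ ⟨x, by simp⟩) (τ ⟨y, by simp⟩) with hg
  have hgc : Continuous g := by fun_prop
  have ht := hlim' {x, y} g hgc
  have hev : ∀ᶠ k in atTop, |volMean β (v k) {x, y} g| ≤ C * D ^ (-ρ) := by
    filter_upwards [hv (2 * K + 3)] with k hk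
    refine le_trans ?_ (mul_le_mul_of_nonneg_left
      (Real.rpow_le_rpow_of_exponent_le hD (neg_le_neg hρρ')) hC.le)
    have hH : WindowBound n β ρ' C := @hmain
    generalize v k = w at hk ⊢
    rcases w with Λ | ⟨a, b⟩
    · have hsub : box K ⊆ Λ := fun z hz => hk (by
        rw [mem_box] at hz ⊢
        push_cast
        constructor <;> linarith)
      have hF : ({x, y} : Finset Site) ⊆ Λ :=
        Finset.insert_subset (hsub hxK) (Finset.singleton_subset_iff.2 (hsub hyK))
      exact free_bound hH hF (⟨x, by simp⟩ : ↥({x, y} : Finset Site)) ⟨y, by simp⟩ hxy hball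
    · obtain ⟨ha, hb⟩ : 2 * K + 3 ≤ a ∧ 2 * K + 3 ≤ b := hk
      exact torus_bound hH (by omega) (by omega) (⟨x, by simp⟩ : ↥({x, y} : Finset Site))
        ⟨y, by simp⟩ hxy hxK hyK hball
  have hle := le_of_tendsto ht.abs hev
  simpa [hg] using hle

end Vale.Agent.P163
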