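import Vale.Agent.P163.Gibbs

/-!
# Rotations under a tilted measure, and the decoupled decay bound
-/

namespace Vale.Agent.P163

open MeasureTheory

variable {n : ℕ} {V E : Type} [Fintype V] [Fintype E] [NeZero n]

/-- A quantitative Mermin–Wagner lemma: two inverse measure preserving maps with small second
variation of the exponent hardly move averages. -/
theorem abs_avg_comp_sub_le {U f : Conf V n → ℝ} (hU : Continuous U) (hf : Continuous f)
    (hf1 : ∀ σ, |f σ| ≤ 1) {T T' : Conf V n → Conf V n}
    (hT : MeasurePreserving T (base V n) (base V n))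
    (hT' : MeasurePreserving T' (base V n) (base V n))
    (hTc : Continuous T) (hT'c : Continuous T') (hinv : ∀ σ, T (T' σ) = σ)
    {η : ℝ} (hη : 0 < η) (h2 : ∀ σ, 2 * U σ - U (T σ) - U (T' σ) ≤ η) :
    |avg U (fun σ => f (T σ)) - avg U f| ≤ 2 * Real.sqrt η := by
  have hmove : ∀ {S : Conf V n → Conf V n}, MeasurePreserving S (base V n) (base V n) →
      ∀ {F : Conf V n → ℝ}, Continuous F → ∫ σ, F (S σ) ∂base V n = ∫ σ, F σ ∂base V n := by
    intro S hS F hF
    conv_rhs => rw [← hS.map_eq]
    rw [integral_map hS.measurable.aemeasurable hF.aestronglyMeasurable]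
  have hT2 : ∫ σ, Real.exp (U σ) * f (T σ) ∂base V n
      = ∫ σ, Real.exp (U (T' σ)) * f σ ∂base V n := by
    rw [← hmove hT' (F := fun σ => Real.exp (U σ) * f (T σ)) (by fun_prop)]
    simp only [hinv]
  set Z := ∫ σ, Real.exp (U σ) ∂base V n with hZdef
  have hZ : 0 < Z := weight_pos hU
  set u := fun σ => Real.exp (U σ / 2) with hu
  set v := fun σ => Real.exp (U (T' σ) / 2) with hv
  have huu : ∀ σ, u σ * u σ = Real.exp (U σ) := fun σ => by
    rw [hu, ← Real.exp_add, add_halves]
  have hvv : ∀ σ, v σ * v σ = Real.exp (U (T' σ)) := fun σ => by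
    rw [hv, ← Real.exp_add, add_halves]
  have iu : ∫ σ, u σ * u σ ∂base V n = Z := by simp only [huu, hZdef]
  have iv : ∫ σ, v σ * v σ ∂base V n = Z := by
    simp only [hvv]
    exact hmove hT' (F := fun σ => Real.exp (U σ)) (by fun_prop)
  -- the Hellinger defect of both maps
  have hdef : ∀ {S : Conf V n → Conf V n}, Continuous S →
      Z + ∫ σ, Real.exp (U σ) * ((U (S σ) - U σ) / 2) ∂base V n
        ≤ ∫ σ, u σ * Real.exp (U (S σ) / 2) ∂base V n := by
    intro S hS
    rw [hZdef, ← integral_add (integrable_base (by fun_prop)) (integrable_base (by fun_prop))]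
    refine integral_mono (integrable_base (by fun_prop)) (integrable_base (by fun_prop))
      fun σ => ?_
    have e : u σ * Real.exp (U (S σ) / 2) = Real.exp (U σ) * Real.exp ((U (S σ) - U σ) / 2) := by
      rw [hu, ← Real.exp_add, ← Real.exp_add]
      ring_nf
    rw [e]
    have := mul_le_mul_of_nonneg_left (Real.add_one_le_exp ((U (S σ) - U σ) / 2))
      (Real.exp_nonneg (U σ))
    linarith
  have hdefT := hdef hTc
  have hdefT' := hdef hT'c
  have hbcT : ∫ σ, u σ * Real.exp (U (T σ) / 2) ∂base V n ≤ Z := by
    have h1 : ∫ σ, u σ * Real.exp (U (T σ) / 2) ∂base V n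
        ≤ ∫ σ, (u σ * u σ + Real.exp (U (T σ))) / 2 ∂base V n := by
      refine integral_mono (integrable_base (by fun_prop)) (integrable_base (by fun_prop))
        fun σ => ?_
      have e : Real.exp (U (T σ)) = Real.exp (U (T σ) / 2) * Real.exp (U (T σ) / 2) := by
        rw [← Real.exp_add, add_halves]
      rw [e]
      nlinarith [sq_nonneg (u σ - Real.exp (U (T σ) / 2))]
    refine h1.trans (le_of_eq ?_)
    rw [integral_div, integral_add (integrable_base (by fun_prop)) (integrable_base (by fun_prop)),
      iu, hmove hT (F := fun σ => Real.exp (U σ)) (by fun_prop)]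
    ring
  have hsum : -(∫ σ, Real.exp (U σ) * ((U (T σ) - U σ) / 2) ∂base V n)
      - ∫ σ, Real.exp (U σ) * ((U (T' σ) - U σ) / 2) ∂base V n ≤ η / 2 * Z := by
    have : ∫ σ, (-(Real.exp (U σ) * ((U (T σ) - U σ) / 2))
        - Real.exp (U σ) * ((U (T' σ) - U σ) / 2)) ∂base V n
        ≤ ∫ σ, η / 2 * Real.exp (U σ) ∂base V n := by
      refine integral_mono (integrable_base (by fun_prop)) (integrable_base (by fun_prop))
        fun σ => ?_
      have := mul_le_mul_of_nonneg_left (h2 σ) (Real.exp_nonneg (U σ))
      linarith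
    rwa [integral_sub (integrable_base (by fun_prop)) (integrable_base (by fun_prop)),
      integral_neg, integral_const_mul] at this
  have hBC : Z - ∫ σ, u σ * v σ ∂base V n ≤ η / 2 * Z := by
    simp only [hv]
    linarith
  set c := Real.sqrt η with hc
  have hcc : c * c = η := Real.mul_self_sqrt hη.le
  have hc0 : 0 < c := Real.sqrt_pos.2 hη
  have key : |(∫ σ, Real.exp (U (T' σ)) * f σ ∂base V n) - ∫ σ, Real.exp (U σ) * f σ ∂base V n|
      ≤ 2 * c * Z := by
    rw [← integral_sub (integrable_base (by fun_prop)) (integrable_base (by fun_prop))]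
    refine abs_integral_le_integral_abs.trans ?_
    have hle : ∫ σ, |Real.exp (U (T' σ)) * f σ - Real.exp (U σ) * f σ| ∂base V n
        ≤ ∫ σ, ((1 / c + c / 4) * (u σ * u σ + v σ * v σ)
          + (c / 2 - 2 / c) * (u σ * v σ)) ∂base V n := by
      refine integral_mono (integrable_base (by fun_prop)) (integrable_base (by fun_prop))
        fun σ => ?_
      show |Real.exp (U (T' σ)) * f σ - Real.exp (U σ) * f σ| ≤ _
      rw [← sub_mul, abs_mul, ← huu σ, ← hvv σ]
      refine (mul_le_of_le_one_right (abs_nonneg _) (hf1 σ)).trans ?_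
      have e : (1 / c + c / 4) * (u σ * u σ + v σ * v σ) + (c / 2 - 2 / c) * (u σ * v σ)
          = (u σ - v σ) ^ 2 / c + c / 4 * (u σ + v σ) ^ 2 := by ring
      rw [e, show v σ * v σ - u σ * u σ = (v σ - u σ) * (v σ + u σ) by ring, abs_mul,
        div_add' _ _ _ hc0.ne', le_div_iff₀ hc0, ← sq_abs (u σ - v σ), abs_sub_comm (v σ),
        abs_of_nonneg (show 0 ≤ v σ + u σ by positivity)]
      nlinarith [sq_nonneg (|u σ - v σ| - c / 2 * (v σ + u σ))]
    refine hle.trans ?_
    rw [integral_add (integrable_base (by fun_prop)) (integrable_base (by fun_prop)),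
      integral_const_mul, integral_const_mul,
      integral_add (integrable_base (by fun_prop)) (integrable_base (by fun_prop)), iu, iv]
    set B := ∫ σ, u σ * v σ ∂base V n
    have e : (1 / c + c / 4) * (Z + Z) + (c / 2 - 2 / c) * B
        = 2 * (Z - B) / c + c / 2 * (Z + B) := by ring
    rw [e]
    have hB : B ≤ Z := by
      have : B ≤ ∫ σ, (u σ * u σ + v σ * v σ) / 2 ∂base V n := by
        refine integral_mono (integrable_base (by fun_prop)) (integrable_base (by fun_prop))
          fun σ => ?_
        nlinarith [sq_nonneg (u σ - v σ)]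
      refine this.trans (le_of_eq ?_)
      rw [integral_div, integral_add (integrable_base (by fun_prop))
        (integrable_base (by fun_prop)), iu, iv]
      ring
    rw [div_add' _ _ _ hc0.ne', div_le_iff₀ hc0]
    nlinarith [mul_le_mul_of_nonneg_left hB (mul_nonneg hc0.le hc0.le)]
  rw [avg, avg, hT2, ← sub_div, abs_div, abs_of_pos hZ, div_le_iff₀ hZ]
  exact key

omit [NeZero n] in
theorem abs_co_le_one (s : Spin n) (i : Fin n) : |co s i| ≤ 1 :=
  abs_le_one_iff_mul_self_le_one.2 (by
    rw [← sq, ← co_sq_sum s]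
    exact Finset.single_le_sum (fun k _ => sq_nonneg (co s k)) (Finset.mem_univ i))

variable (β : ℝ) (src dst : E → V)

omit [Fintype V] [NeZero n] in
theorem energy_second_diff (hβ : 0 ≤ β) {k l : Fin n} (h : k ≠ l) (φ : V → ℝ) (σ : Conf V n) :
    2 * energy β src dst σ - energy β src dst (turnAll h φ σ)
        - energy β src dst (turnAll h (fun x => -φ x) σ)
      ≤ β * ∑ e, (φ (src e) - φ (dst e)) ^ 2 := by
  simp only [energy, turnAll, dot_turn h]
  rw [← mul_left_comm β 2, ← mul_sub, ← mul_sub, Finset.mul_sum (a := (2 : ℝ)),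
    ← Finset.sum_sub_distrib, ← Finset.sum_sub_distrib]
  refine mul_le_mul_of_nonneg_left (Finset.sum_le_sum fun e _ => ?_) hβ
  set d := φ (src e) - φ (dst e) with hd
  rw [show -φ (src e) - -φ (dst e) = -d by rw [hd]; ring, Real.cos_neg, Real.sin_neg]
  have a := (abs_le.1 (abs_pdot_le h (σ (src e)) (σ (dst e)))).2
  have b := Real.one_sub_sq_div_two_le_cos (x := d)
  have c := Real.cos_le_one d
  nlinarith [mul_le_mul_of_nonneg_left a (sub_nonneg.2 c)]

/-- The tilted mean of a planar bond term is at most `2 / n` up to the Mermin–Wagner error. -/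
theorem avg_pdot_le (hβ : 0 ≤ β) {i j : Fin n} (hij : i ≠ j) (c : E → ℝ) (e₀ : E) (φ : V → ℝ)
    (h1 : φ (src e₀) = Real.pi / 2) (h2 : φ (dst e₀) = Real.pi / 2) {η : ℝ} (hη : 0 < η)
    (S : Finset E) (hS : ∀ e ∉ S, φ (src e) = 0 ∧ φ (dst e) = 0)
    (hsum : β * ∑ e, (φ (src e) - φ (dst e)) ^ 2 + 4 * ∑ e ∈ S, |c e| ≤ η) :
    avg (fun σ => energy β src dst σ + planar i j c src dst σ)
        (fun σ => pdot i j (σ (src e₀)) (σ (dst e₀)))
      ≤ 2 / n + 4 * Real.sqrt η := by
  set U := fun σ : Conf V n => energy β src dst σ + planar i j c src dst σ with hUdef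
  have hU : Continuous U := by fun_prop
  set t := fun (k : Fin n) (σ : Conf V n) => co (σ (src e₀)) k * co (σ (dst e₀)) k with ht
  have htc : ∀ k, Continuous (t k) := fun k => by fun_prop
  have step : ∀ k l, k ≠ l → avg U (t k) ≤ avg U (t l) + 2 * Real.sqrt η := by
    intro k l hkl
    have key := abs_avg_comp_sub_le (U := U) (f := t k) hU (htc k) (fun σ => by
      rw [ht, abs_mul]
      exact mul_le_one₀ (abs_co_le_one _ _) (abs_nonneg _) (abs_co_le_one _ _))
      (measurePreserving_turnAll hkl φ) (measurePreserving_turnAll hkl fun x => -φ x)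
      (continuous_turnAll hkl φ) (continuous_turnAll hkl _)
      (fun σ => funext fun x => by
        simpa [turnAll] using turn_neg_turn hkl (-φ x) (σ x)) hη (fun σ => ?_)
    · have e : (fun σ => t k (turnAll hkl φ σ)) = t l := by
        funext σ
        simp [ht, turnAll, h1, h2, co_turn_fst hkl]
      rw [e] at key
      linarith [(abs_le.1 key).1]
    · have a := energy_second_diff β src dst hβ hkl φ σ
      have hp : 2 * planar i j c src dst σ - planar i j c src dst (turnAll hkl φ σ)
          - planar i j c src dst (turnAll hkl (fun x => -φ x) σ) ≤ 4 * ∑ e ∈ S, |c e| := by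
        simp only [planar]
        rw [Finset.mul_sum, ← Finset.sum_sub_distrib, ← Finset.sum_sub_distrib,
          ← Finset.sum_subset (Finset.subset_univ S) (fun e _ he => ?_), Finset.mul_sum]
        · refine Finset.sum_le_sum fun e _ => ?_
          have h0 := abs_le.1 (abs_pdot_le hij (σ (src e)) (σ (dst e)))
          have h' := abs_le.1 (abs_pdot_le hij (turnAll hkl φ σ (src e))
            (turnAll hkl φ σ (dst e)))
          have h'' := abs_le.1 (abs_pdot_le hij (turnAll hkl (fun x => -φ x) σ (src e))
            (turnAll hkl (fun x => -φ x) σ (dst e)))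
          rcases abs_cases (c e) with ⟨hc, hc'⟩ | ⟨hc, hc'⟩ <;> rw [hc] <;> nlinarith
        · obtain ⟨q1, q2⟩ := hS e he
          simp [turnAll, q1, q2, turn_zero]
          ring
      simp only [hUdef]
      linarith
  have hs0 : (0 : ℝ) ≤ Real.sqrt η := Real.sqrt_nonneg η
  have all : ∀ k l, avg U (t k) ≤ avg U (t l) + 2 * Real.sqrt η := by
    intro k l
    rcases eq_or_ne k l with rfl | hkl
    · linarith
    · exact step k l hkl
  have tot : ∑ l, avg U (t l) ≤ 1 := by
    rw [← avg_sum hU _ (fun k _ => htc k), ← avg_const hU (1 : ℝ)]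
    refine avg_mono hU (by fun_prop) continuous_const fun σ => ?_
    rw [← dot_eq]
    exact (abs_le.1 (abs_dot_le _ _)).2
  have hn : (0 : ℝ) < n := Nat.cast_pos.2 (Nat.pos_of_neZero n)
  have each : ∀ k, avg U (t k) ≤ 1 / n + 2 * Real.sqrt η := by
    intro k
    have hh := Finset.sum_le_sum fun l (_ : l ∈ Finset.univ) => all k l
    rw [Finset.sum_const, Finset.card_univ, Fintype.card_fin, nsmul_eq_mul,
      Finset.sum_add_distrib, Finset.sum_const, Finset.card_univ, Fintype.card_fin,
      nsmul_eq_mul] at hh
    rw [div_add' _ _ _ hn.ne', le_div_iff₀ hn]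
    nlinarith
  have split : avg U (fun σ => pdot i j (σ (src e₀)) (σ (dst e₀))) = avg U (t i) + avg U (t j) := by
    simp only [avg, pdot, ht, mul_add]
    rw [integral_add (integrable_base (by fun_prop)) (integrable_base (by fun_prop)), add_div]
  rw [split]
  linarith [each i, each j, show (2 : ℝ) / n = 1 / n + 1 / n by ring]

/-- Averaging the plane gives the scalar product. -/
theorem avg_dot_eq {i j : Fin n} (a b : V) :
    avg (energy β src dst) (fun σ : Conf V n => dot (σ a) (σ b))
      = (n : ℝ) / 2 * avg (energy β src dst) (fun σ => pdot i j (σ a) (σ b)) := by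
  set t := fun (k : Fin n) (σ : Conf V n) => co (σ a) k * co (σ b) k with ht
  have htc : ∀ k, Continuous (t k) := fun k => by fun_prop
  have hk : ∀ k l, avg (energy β src dst) (t k) = avg (energy β src dst) (t l) := by
    intro k l
    rcases eq_or_ne k l with rfl | hkl
    · rfl
    simp only [avg]
    rw [← integral_turnAll hkl (fun _ : V => Real.pi / 2)
      (f := fun σ => Real.exp (energy β src dst σ) * t k σ) (by fun_prop)]
    congr 1
    refine integral_congr_ae (Filter.Eventually.of_forall fun σ => ?_)
    simp [energy, ht, turnAll, dot_turn, co_turn_fst hkl]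
  have hsum : avg (energy β src dst) (fun σ : Conf V n => dot (σ a) (σ b))
      = ∑ k, avg (energy β src dst) (t k) := by
    rw [← avg_sum (by fun_prop) _ (fun k _ => htc k)]
    congr 1
    funext σ
    exact dot_eq _ _
  have hp : avg (energy β src dst) (fun σ => pdot i j (σ a) (σ b))
      = avg (energy β src dst) (t i) + avg (energy β src dst) (t j) := by
    simp only [avg, pdot, ht, mul_add]
    rw [integral_add (integrable_base (by fun_prop)) (integrable_base (by fun_prop)), add_div]
  rw [hsum, hp, Finset.sum_congr rfl fun k _ => hk k i, hk j i, Finset.sum_const, Finset.card_univ,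
    Fintype.card_fin, nsmul_eq_mul]
  ring

/-- The decoupled bound. -/
theorem abs_avg_dot_le {i j : Fin n} (hij : i ≠ j) (ψ : V → ℝ) (a b : V) :
    |avg (energy β src dst) (fun σ : Conf V n => dot (σ a) (σ b))|
      ≤ (n : ℝ) / 2 * Real.exp (-(ψ a - ψ b)
        + ∑ e, β * (Real.cosh (ψ (src e) - ψ (dst e)) - 1)
          * avg (fun σ => energy β src dst σ
              + planar i j (fun e => β * (Real.cosh (ψ (src e) - ψ (dst e)) - 1)) src dst σ)
            (fun σ => pdot i j (σ (src e)) (σ (dst e)))) := by
  rw [avg_dot_eq β src dst (i := i) (j := j), abs_mul,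
    abs_of_nonneg (show (0 : ℝ) ≤ n / 2 by positivity)]
  refine mul_le_mul_of_nonneg_left ?_ (by positivity)
  set c := fun e => β * (Real.cosh (ψ (src e) - ψ (dst e)) - 1) with hc
  have hpl : avg (fun σ => energy β src dst σ + planar i j c src dst σ)
      (planar i j c src dst) = ∑ e, c e * avg (fun σ => energy β src dst σ
        + planar i j c src dst σ) (fun σ => pdot i j (σ (src e)) (σ (dst e))) := by
    unfold planar
    rw [avg_sum (by fun_prop) _ (fun e _ => by fun_prop)]
    exact Finset.sum_congr rfl fun e _ => avg_const_mul _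
  have hJ := log_tilt_le (U := energy β src dst) (f := planar i j c src dst)
    (by fun_prop) (by fun_prop)
  rw [hpl] at hJ
  have hR := rotate_bound hij β src dst ψ a b
  rw [avg, abs_div, abs_of_pos (weight_pos (continuous_energy β src dst)),
    div_le_iff₀ (weight_pos (continuous_energy β src dst))]
  refine hR.trans ((mul_le_mul_of_nonneg_left hJ (Real.exp_nonneg _)).trans (le_of_eq ?_))
  rw [Real.exp_add]
  ring

end Vale.Agent.P163
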